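import Vale.Agent.P144Z.I1.Sec

/-!
# Spins in terms of contours
-/

namespace Vale.Agent.P144Z.I1

open Finset Matrix Vale.Agent.P144

set_option linter.unusedSectionVars false

theorem tele (s : ℤ → ℝ) (hs : ∀ i, s i * s i = 1) (a b : ℤ) :
    ∏ i ∈ Finset.Ico (min a b) (max a b), s (i + 1) * s i = s a * s b := by
  have key : ∀ (a : ℤ) (k : ℕ), ∏ i ∈ Finset.Ico a (a + k), s (i + 1) * s i = s a * s (a + k) := by
    intro a k
    induction k with
    | zero => simp [hs]
    | succ k ih =>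
      have e : Finset.Ico a (a + (k + 1 : ℕ)) = insert (a + k) (Finset.Ico a (a + k)) := by
        ext i
        simp only [Finset.mem_Ico, Finset.mem_insert]
        omega
      rw [e, Finset.prod_insert (by simp), ih, Nat.cast_succ, ← add_assoc]
      linear_combination s a * s (a + k + 1) * hs (a + k)
  rcases le_total a b with h | h
  · obtain ⟨k, rfl⟩ := Int.le.dest h
    rw [min_eq_left h, max_eq_right h, key]
  · obtain ⟨k, rfl⟩ := Int.le.dest h
    rw [min_eq_right h, max_eq_left h, key, mul_comm]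

theorem prj_add (M : ℕ) (u v : ℤ × ℤ) : prj M (u + v) = prj M u + prj M v := by
  simp [prj]

theorem prj_uz (M : ℕ) (i : Fin 2) : prj M (uz i) = uv M i := by
  fin_cases i <;> simp [prj, uz, uv]

theorem prj_zero (M : ℕ) : prj M 0 = 0 := by simp [prj]

theorem sgn_eq (b : Bool) : sgn b = -sp b := by cases b <;> simp [sgn, sp]

theorem sp_mul_self (b : Bool) : sp b * sp b = 1 := by cases b <;> simp [sp]

variable {M : ℕ} [NeZero M]

/-- a configuration of the torus seen from `y` -/
def see (y : Tor M) (n : Tor M × Fin 2 → Bool) (e : (ℤ × ℤ) × Fin 2) : Bool :=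
  n (y + prj M e.1, e.2)

theorem see_eq (g : Geo) (y : g.P) (n : g.Cfg) : g.see y n = see y n := rfl

theorem sgn_dom (σ : Tor M → Bool) (e : Tor M × Fin 2) :
    sgn (dom σ e) = sp (σ e.1) * sp (σ (e.1 - uv M (if e.2 = 0 then 1 else 0))) := by
  unfold dom
  rw [sgn_xor, sgn_eq, sgn_eq, neg_mul_neg]

theorem bond_dom (σ : Tor M → Bool) (y : Tor M) (u : ℤ × ℤ) (i : Fin 2) :
    bond (see y (dom σ)) u i = sp (σ (y + prj M (u + uz i))) * sp (σ (y + prj M u)) := by
  unfold bond see
  rw [sgn_dom]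
  have e : (if (if i = 0 then (1 : Fin 2) else 0) = 0 then (1 : Fin 2) else 0) = i := by
    fin_cases i <;> rfl
  dsimp only
  rw [e, prj_add, prj_uz, ← add_assoc, add_sub_cancel_right]

theorem pHV_dom (σ : Tor M → Bool) (y : Tor M) (a b : ℤ × ℤ) :
    pHV (see y (dom σ)) a b = sp (σ (y + prj M a)) * sp (σ (y + prj M b)) := by
  unfold pHV
  simp only [bond_dom]
  have h0 := tele (fun i => sp (σ (y + prj M (i, a.2)))) (fun _ => sp_mul_self _) a.1 b.1
  have h1 := tele (fun i => sp (σ (y + prj M (b.1, i)))) (fun _ => sp_mul_self _) a.2 b.2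
  have e0 : ∀ i : ℤ, (i, a.2) + uz 0 = (i + 1, a.2) := fun i => by simp [uz]
  have e1 : ∀ i : ℤ, (b.1, i) + uz 1 = (b.1, i + 1) := fun i => by simp [uz]
  simp only [e0, e1]
  rw [h0, h1]
  linear_combination sp (σ (y + prj M a)) * sp (σ (y + prj M b)) *
    sp_mul_self (σ (y + prj M (b.1, a.2)))

theorem spinFn_dom (σ : Tor M → Bool) (y : Tor M) {B : Finset (ℤ × ℤ)} (hB : B.Nonempty)
    (he : Even B.card) : spinFn B (see y (dom σ)) = ∏ b ∈ B, sp (σ (y + prj M b)) := by
  unfold spinFn
  simp only [pHV_dom, Finset.prod_mul_distrib, Finset.prod_const]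
  have e : ∀ a, sp (σ (y + prj M a)) ^ B.card = 1 := by
    intro a
    obtain ⟨k, hk⟩ := he
    rw [hk, pow_add, ← mul_pow, sp_mul_self, one_pow]
  simp only [e, one_mul, mul_one, Finset.sum_const, nsmul_eq_mul]
  have hc : (B.card : ℝ) ≠ 0 := by exact_mod_cast hB.card_pos.ne'
  field_simp
  ring

theorem wt_one (n : Tor M × Fin 2 → Bool) : wt (1 : Gauge M) 1 n = 1 :=
  Finset.prod_eq_one fun e _ => by simp

theorem wt_prod {ι : Type} (s : Finset ι) (A : ι → Gauge M) (n : Tor M × Fin 2 → Bool) :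
    wt (∏ i ∈ s, A i) 1 n = ∏ i ∈ s, wt (A i) 1 n := by
  classical
  induction s using Finset.induction_on with
  | empty => exact wt_one n
  | insert i s hi ih => rw [prod_insert hi, prod_insert hi, wt_mul, ih]

theorem wt_point (e₀ : Tor M × Fin 2) (n : Tor M × Fin 2 → Bool) :
    wt (fun e => if e = e₀ then -1 else 1) 1 n = sgn (n e₀) := by
  unfold wt
  rw [Finset.prod_eq_single e₀]
  · simp [sgn]
  · intro e _ he
    simp [he]
  · intro h
    exact absurd (mem_univ _) h

theorem wt_strG (a b : ℤ × ℤ) (n : Tor M × Fin 2 → Bool) :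
    wt (strG M a b) 1 n = pHV (see 0 n) a b := by
  have e : strG M a b = (∏ i ∈ Finset.Ico (min a.1 b.1) (max a.1 b.1),
      fun e => if e = (prj M ((i, a.2) + uz 0), 1) then -1 else 1) *
      ∏ i ∈ Finset.Ico (min a.2 b.2) (max a.2 b.2),
      fun e => if e = (prj M ((b.1, i) + uz 1), 0) then -1 else 1 := by
    funext e
    rw [Pi.mul_apply, Finset.prod_apply, Finset.prod_apply]
    rfl
  rw [e, wt_mul, wt_prod, wt_prod]
  simp only [wt_point]
  unfold pHV bond see
  simp only [zero_add]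
  rfl

theorem wt_strG_dom (a b : ℤ × ℤ) (σ : Tor M → Bool) :
    wt (strG M a b) 1 (dom σ) = sp (σ (prj M a)) * sp (σ (prj M b)) := by
  rw [wt_strG, pHV_dom, zero_add, zero_add]

theorem wt_spinG_dom {k : ℕ} (a : ℤ × ℤ) (x : Fin k → ℤ × ℤ) (σ : Tor M → Bool) :
    wt (spinG M a x) 1 (dom σ) = sp (σ (prj M a)) ^ k * ∏ i, sp (σ (prj M (x i))) := by
  unfold spinG
  rw [wt_prod]
  simp only [wt_strG_dom]
  rw [Finset.prod_mul_distrib, Finset.prod_const, Finset.card_univ, Fintype.card_fin]

theorem wt_spinG_dom_even {k : ℕ} (hk : Even k) (a : ℤ × ℤ) (x : Fin k → ℤ × ℤ)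
    (σ : Tor M → Bool) : wt (spinG M a x) 1 (dom σ) = ∏ i, sp (σ (prj M (x i))) := by
  obtain ⟨m, rfl⟩ := hk
  rw [wt_spinG_dom, pow_add, ← mul_pow, sp_mul_self, one_pow, one_mul]

/-- the energy of a bond is the sign of the dual edge -/
theorem sgn_dom_dualE (σ : Tor M → Bool) (u : ℤ × ℤ) (j : Fin 2) :
    sgn (dom σ (prj M (dualE u j).1, (dualE u j).2)) =
      sp (σ (prj M u)) * sp (σ (prj M (u + dir j))) := by
  have h := bond_dom σ 0 u j
  unfold bond see at h
  simp only [zero_add] at h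
  exact h.trans (mul_comm _ _)

theorem uint_dom (q : Par) (hV : IsPotential q.V) (σ : Tor M → Bool) :
    uint q (dom σ) = ∑ y : Tor M, ∑ B ∈ potSets q.R,
      q.μ * q.V B / B.card * ∏ b ∈ B, sp (σ (y + prj M b)) := by
  refine Finset.sum_congr rfl fun y _ => Finset.sum_congr rfl fun B hB => ?_
  by_cases h : q.V B = 0
  · simp [h]
  · exact congrArg _ (spinFn_dom σ y ⟨_, (mem_filter.1 hB).2⟩ (hV.even B h))

/-- the edges at the origin -/
def edges0 : Finset (Finset Site) :=
  {{0, (1, 0)}, {0, (0, 1)}, {0, (-1, 0)}, {0, (0, -1)}}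

theorem mem_edges0 {B : Finset Site} : B ∈ edges0 ↔ IsEdge B ∧ 0 ∈ B := by
  constructor
  · intro h
    simp only [edges0, mem_insert, mem_singleton] at h
    rcases h with rfl | rfl | rfl | rfl <;> exact ⟨⟨_, _, by decide, rfl⟩, mem_insert_self _ _⟩
  · rintro ⟨⟨u, v, huv, rfl⟩, h0⟩
    have key : ∀ w : Site, w.1 ^ 2 + w.2 ^ 2 = 1 → ({0, w} : Finset Site) ∈ edges0 := by
      rintro ⟨a, b⟩ h
      dsimp only at h
      have ha : -1 ≤ a ∧ a ≤ 1 := ⟨by nlinarith [sq_nonneg b], by nlinarith [sq_nonneg b]⟩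
      have hb : -1 ≤ b ∧ b ≤ 1 := ⟨by nlinarith [sq_nonneg a], by nlinarith [sq_nonneg a]⟩
      obtain ⟨ha1, ha2⟩ := ha
      obtain ⟨hb1, hb2⟩ := hb
      interval_cases a <;> interval_cases b <;> simp_all [edges0]
    rcases mem_insert.1 h0 with h | h
    · subst h
      exact key v (by simpa [dsq] using huv)
    · rw [mem_singleton] at h
      subst h
      rw [Finset.pair_comm]
      exact key u (by simpa [dsq] using huv)

theorem sum_edges0 (f : Finset Site → ℝ) : ∑ B ∈ edges0, f B =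
    f {0, (1, 0)} + f {0, (0, 1)} + f {0, (-1, 0)} + f {0, (0, -1)} := by
  unfold edges0
  rw [Finset.sum_insert (by decide), Finset.sum_insert (by decide), Finset.sum_pair (by decide)]
  ring

theorem image_back (x y : Site) (h : x + y = 0) (A : Finset Site) :
    ((A.image fun b => b + x).image fun b => b + y) = A := by
  rw [Finset.image_image]
  refine (Finset.image_congr fun b _ => ?_).trans Finset.image_id
  show b + x + y = b
  rw [add_assoc, h, add_zero]

theorem isEdge_image (x : Site) (B : Finset Site) :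
    IsEdge (B.image fun b => b + x) ↔ IsEdge B := by
  have key : ∀ (x : Site) (B : Finset Site), IsEdge B → IsEdge (B.image fun b => b + x) := by
    rintro x B ⟨u, v, h, rfl⟩
    refine ⟨u + x, v + x, ?_, by simp⟩
    rw [← h]
    simp [dsq]
  refine ⟨fun h => ?_, key x B⟩
  have := key (-x) _ h
  rwa [image_back _ _ (add_neg_cancel x)] at this

open Classical in
theorem finsum_site (J lam : ℝ) {V : Finset Site → ℝ} (hV : IsPotential V) {R : ℕ}
    (hR : ∀ B, V B ≠ 0 → (0, 0) ∈ B → B ∈ potSets R) (s : Site → ℝ) (x : Site) :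
    ∑ᶠ (A : Finset Site) (_ : x ∈ A), ((if IsEdge A then J else 0) + lam * V A) / A.card *
      ∏ y ∈ A, s y = J / 2 * (s x * (s (x + (1, 0)) + s (x + (0, 1)) + s (x + (-1, 0)) +
        s (x + (0, -1)))) + ∑ B ∈ potSets R, lam * V B / B.card * ∏ b ∈ B, s (x + b) := by
  have hinj : ∀ x : Site, Function.Injective fun b : Site => b + x := fun x => add_left_injective x
  have hback := image_back (-x) x (neg_add_cancel x)
  have hp : ∀ B : Finset Site, ∏ y ∈ B.image fun b => b + x, s y = ∏ b ∈ B, s (x + b) := by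
    intro B
    rw [Finset.prod_image fun b _ b' _ h => hinj x h]
    exact Finset.prod_congr rfl fun b _ => by rw [add_comm]
  rw [finsum_cond_eq_sum_of_cond_iff _
    (t := (edges0 ∪ potSets R).image fun B => B.image fun b => b + x)]
  · rw [Finset.sum_image fun B _ B' _ h => Finset.image_injective (hinj x) h]
    simp only [isEdge_image, hV.translate, Finset.card_image_of_injective _ (hinj x), hp,
      add_div, add_mul, Finset.sum_add_distrib]
    refine congrArg₂ (· + ·) ?_ ?_
    · rw [← Finset.sum_subset Finset.subset_union_left]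
      · have he : ∀ w : Site, ({0, w} : Finset Site) ∈ edges0 → IsEdge {0, w} :=
          fun w hw => (mem_edges0.1 hw).1
        rw [sum_edges0, if_pos (he _ (by decide)), if_pos (he _ (by decide)),
          if_pos (he _ (by decide)), if_pos (he _ (by decide)), Finset.card_pair (by decide), Finset.card_pair (by decide), Finset.card_pair (by decide),
          Finset.card_pair (by decide), Finset.prod_pair (by decide), Finset.prod_pair (by decide),
          Finset.prod_pair (by decide), Finset.prod_pair (by decide), add_zero]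
        push_cast
        ring
      · intro B hB hB'
        have h0 : (0 : Site) ∈ B := (mem_filter.1 ((mem_union.1 hB).resolve_left hB')).2
        rw [if_neg fun h => hB' (mem_edges0.2 ⟨h, h0⟩), zero_div, zero_mul]
    · rw [← Finset.sum_subset Finset.subset_union_right]
      intro B hB hB'
      have h0 : (0 : Site) ∈ B := (mem_edges0.1 ((mem_union.1 hB).resolve_right hB')).2
      have h1 : V B = 0 := by
        by_contra h
        exact hB' (hR B h h0)
      rw [h1, mul_zero, zero_div, zero_mul]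
  · intro A hA
    constructor
    · intro hx
      refine mem_image.2 ⟨A.image fun b => b + -x, ?_, hback A⟩
      have h0 : (0 : Site) ∈ A.image fun b => b + -x := mem_image.2 ⟨x, hx, add_neg_cancel x⟩
      by_cases he : IsEdge A
      · exact mem_union_left _ (mem_edges0.2 ⟨(isEdge_image _ _).2 he, h0⟩)
      · refine mem_union_right _ (hR _ ?_ h0)
        rw [hV.translate]
        intro h
        simp [he, h] at hA
    · intro h
      obtain ⟨B, hB, rfl⟩ := mem_image.1 h
      have h0 : (0 : Site) ∈ B := by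
        rcases mem_union.1 hB with h | h
        · exact (mem_edges0.1 h).2
        · exact (mem_filter.1 h).2
      exact mem_image.2 ⟨0, h0, zero_add x⟩

theorem sum_box (h : Tor M → ℝ) :
    ∑ x ∈ Finset.Ico (0 : ℤ) M ×ˢ Finset.Ico (0 : ℤ) M, h (prj M x) = ∑ y, h y := by
  have hv : ∀ a : ℤ, a ∈ Finset.Ico (0 : ℤ) M → (((a : ZMod M).val : ℕ) : ℤ) = a := by
    intro a ha
    rw [ZMod.val_intCast, Int.emod_eq_of_lt (mem_Ico.1 ha).1 (mem_Ico.1 ha).2]
  refine Finset.sum_bij (fun x _ => prj M x) (fun _ _ => mem_univ _) ?_ ?_ fun _ _ => rfl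
  · intro x hx x' hx' e
    have e1 := Prod.ext_iff.1 e
    refine Prod.ext ?_ ?_
    · rw [← hv _ (mem_product.1 hx).1, ← hv _ (mem_product.1 hx').1]
      exact congrArg (fun z : ZMod M => (z.val : ℤ)) e1.1
    · rw [← hv _ (mem_product.1 hx).2, ← hv _ (mem_product.1 hx').2]
      exact congrArg (fun z : ZMod M => (z.val : ℤ)) e1.2
  · intro y _
    refine ⟨((y.1.val : ℤ), (y.2.val : ℤ)), mem_product.2 ⟨mem_Ico.2 ⟨by positivity, ?_⟩,
      mem_Ico.2 ⟨by positivity, ?_⟩⟩, by simp [prj]⟩
    · exact Int.ofNat_lt.2 (ZMod.val_lt y.1)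
    · exact Int.ofNat_lt.2 (ZMod.val_lt y.2)

theorem per_eq (σ : Tor M → Bool) (x : Site) : per M σ x = σ (prj M x) := rfl

theorem energyT_per (J lam : ℝ) {V : Finset Site → ℝ} (hV : IsPotential V) {R : ℕ}
    (hR : ∀ B, V B ≠ 0 → (0, 0) ∈ B → B ∈ potSets R) (σ : Tor M → Bool) :
    energyT J lam V M (per M σ) = -(J * ∑ e, sgn (dom σ e) + ∑ y : Tor M, ∑ B ∈ potSets R,
      lam * V B / B.card * ∏ b ∈ B, sp (σ (y + prj M b))) := by
  unfold energyT
  simp only [finsum_site J lam hV hR, per_eq, prj_add]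
  rw [sum_box fun y => J / 2 * (sp (σ y) * (sp (σ (y + prj M (1, 0))) + sp (σ (y + prj M (0, 1))) +
    sp (σ (y + prj M (-1, 0))) + sp (σ (y + prj M (0, -1))))) +
    ∑ B ∈ potSets R, lam * V B / B.card * ∏ b ∈ B, sp (σ (y + prj M b)), Finset.sum_add_distrib]
  refine congrArg (fun t => -(t + _)) ?_
  have p0 : prj M (1, 0) = uv M 0 := by simp [prj, uv]
  have p1 : prj M (0, 1) = uv M 1 := by simp [prj, uv]
  have p2 : prj M (-1, 0) = -uv M 0 := by simp [prj, uv]
  have p3 : prj M (0, -1) = -uv M 1 := by simp [prj, uv]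
  have sh : ∀ i, ∑ y : Tor M, sp (σ y) * sp (σ (y + uv M i)) =
      ∑ y : Tor M, sp (σ y) * sp (σ (y - uv M i)) := by
    intro i
    rw [← Equiv.sum_comp (Equiv.subRight (uv M i))]
    refine Finset.sum_congr rfl fun y _ => ?_
    rw [Equiv.subRight_apply, sub_add_cancel, mul_comm]
  rw [p0, p1, p2, p3, ← Finset.mul_sum]
  simp only [mul_add, Finset.sum_add_distrib, sh, ← sub_eq_add_neg, sgn_dom,
    Fintype.sum_prod_type, Fin.sum_univ_two]
  simp only [if_true, uv_ne.symm, if_false]
  ring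

theorem exp_energyT {J lam β : ℝ} (q : Par) (hV : IsPotential q.V)
    (hR : ∀ B, q.V B ≠ 0 → (0, 0) ∈ B → B ∈ potSets q.R) (hμ : q.μ = β * lam)
    (hx : q.x = Real.exp (-2 * β * J)) (σ : Tor M → Bool) :
    Real.exp (-β * energyT J lam q.V M (per M σ)) =
      Real.exp (β * J) ^ Fintype.card (Tor M × Fin 2) *
        (wt 1 q.x (dom σ) * Real.exp (uint q (dom σ))) := by
  rw [energyT_per J lam hV hR, neg_mul_neg, mul_add, Real.exp_add, ← mul_assoc, ← mul_assoc]
  refine congrArg₂ (· * ·) ?_ (congrArg Real.exp ?_)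
  · rw [Finset.mul_sum, Real.exp_sum, ← Finset.card_univ, ← Finset.prod_const, wt,
      ← Finset.prod_mul_distrib]
    refine Finset.prod_congr rfl fun e _ => ?_
    unfold sgn
    split_ifs
    · rw [hx, Pi.one_apply, mul_one, ← Real.exp_add]
      exact congrArg Real.exp (by ring)
    · rw [mul_one, mul_one]
  · rw [uint_dom q hV, Finset.mul_sum]
    refine Finset.sum_congr rfl fun y _ => ?_
    rw [Finset.mul_sum]
    refine Finset.sum_congr rfl fun B _ => ?_
    rw [hμ]
    ring

/-- **The Gibbs expectation of the torus as a quotient of contour sums.** -/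
theorem gibbsT_eq {J lam β : ℝ} (q : Par) (hV : IsPotential q.V)
    (hR : ∀ B, q.V B ≠ 0 → (0, 0) ∈ B → B ∈ potSets q.R) (hμ : q.μ = β * lam)
    (hx : q.x = Real.exp (-2 * β * J)) (M : ℕ) (F : Config → ℝ) (A : Gauge (M + 1))
    (Φ : (Tor (M + 1) × Fin 2 → Bool) → ℝ)
    (hF : ∀ σ, F (per (M + 1) σ) = wt A 1 (dom σ) * Φ (dom σ)) :
    gibbsT J lam q.V β M F =
      (∑ θ, Zw q (sec (M + 1) θ * A) Φ) / ∑ θ, Zw q (sec (M + 1) θ) fun _ => 1 := by
  have h1 := sum_Zw q (1 : Gauge (M + 1)) fun _ => 1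
  simp only [mul_one] at h1
  rw [h1, sum_Zw, mul_div_mul_left _ _ two_ne_zero]
  unfold gibbsT
  simp only [exp_energyT q hV hR hμ hx, hF]
  have hc : Real.exp (β * J) ^ Fintype.card (Tor (M + 1) × Fin 2) ≠ 0 := by positivity
  refine Eq.trans ?_ (mul_div_mul_left _ _ hc)
  rw [Finset.mul_sum, Finset.mul_sum]
  refine congrArg (· / _) (Finset.sum_congr rfl fun σ _ => ?_)
  have h2 := wt_mul A 1 q.x (dom σ)
  rw [mul_one] at h2
  rw [h2]
  ring

/-- the partition function is positive -/
theorem sum_Zw_pos (q : Par) (hx : 0 < q.x) : 0 < ∑ θ, Zw q (sec M θ) fun _ => 1 := by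
  have h1 := sum_Zw q (1 : Gauge M) fun _ => 1
  simp only [mul_one] at h1
  rw [h1]
  refine mul_pos two_pos (Finset.sum_pos (fun σ _ => mul_pos ?_ (Real.exp_pos _)) univ_nonempty)
  refine Finset.prod_pos fun e _ => ?_
  split_ifs
  · simpa using hx
  · exact one_pos

end Vale.Agent.P144Z.I1
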