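import Vale.Agent.P144Z.I1.Cyc
import Vale.Agent.P144Z.I1.Spin

/-!
# Self-duality: the periodic sector of the critical model vanishes
-/

namespace Vale.Agent.P144Z.I1

open Finset Matrix Vale.Agent.P144

set_option linter.unusedSectionVars false

variable {M : ℕ} [NeZero M]

theorem prod_point (n : Tor M × Fin 2 → Bool) (c : ℝ) (φ : Fin 2 → Tor M) :
    (∏ e : Tor M × Fin 2, if n e then (if e.1 = φ e.2 then c else 1) else 1) =
      (if n (φ 0, 0) then c else 1) * if n (φ 1, 1) then c else 1 := by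
  rw [Fintype.prod_prod_type_right, Fin.prod_univ_two]
  have h4 : ∀ i, (∏ y : Tor M, if n (y, i) then (if y = φ i then c else 1) else 1) =
      if n (φ i, i) then c else 1 := by
    intro i
    rw [Finset.prod_eq_single (φ i)]
    · simp
    · intro y _ hy
      simp [hy]
    · intro hi
      exact absurd (mem_univ _) hi
  rw [h4, h4]

/-- the product of the signs at the ends of the edges -/
noncomputable def ends2 (n : Tor M × Fin 2 → Bool) (σ : Tor M → Bool) : ℝ :=
  ∏ e, if n e then sgn (σ e.1) * sgn (σ (e.1 + uv M e.2)) else 1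

theorem ends2_tog (n : Tor M × Fin 2 → Bool) (x : Tor M) (σ : Tor M → Bool) :
    ends2 n (tog x σ) = sgn (n (x, 0)) * sgn (n (x, 1)) *
      (sgn (n (x - uv M 0, 0)) * sgn (n (x - uv M 1, 1))) * ends2 n σ := by
  have h1 := prod_point n (-1) fun _ => x
  have h2 := prod_point n (-1) fun i => x - uv M i
  unfold ends2
  unfold sgn at *
  rw [← h1, ← h2, ← Finset.prod_mul_distrib, ← Finset.prod_mul_distrib]
  refine Finset.prod_congr rfl fun e _ => ?_
  have e1 := sgn_xor (σ e.1) (decide (e.1 = x))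
  have e2 := sgn_xor (σ (e.1 + uv M e.2)) (decide (e.1 + uv M e.2 = x))
  unfold sgn at e1 e2
  unfold tog
  rw [e1, e2]
  simp only [decide_eq_true_eq, eq_sub_iff_add_eq]
  cases n e
  · simp
  · simp only [if_true]
    ring

theorem tog_tog {α : Type} [DecidableEq α] (x : α) (σ : α → Bool) : tog x (tog x σ) = σ := by
  funext y
  simp [tog]

open Classical in
theorem sum_ends2 (n : Tor M × Fin 2 → Bool) :
    ∑ σ, ends2 n σ = if IsEven n then (2 : ℝ) ^ Fintype.card (Tor M) else 0 := by
  split_ifs with h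
  · have e : ∀ σ, ends2 n σ = 1 := by
      intro σ
      induction σ using bool_ind with
      | h0 => simp [ends2, sgn]
      | ht u σ ih => rw [ends2_tog, h u, ih, one_mul]
    simp [e]
  · obtain ⟨x, hx⟩ := not_forall.1 h
    have h1 : ∀ σ, ends2 n (tog x σ) = -ends2 n σ := by
      intro σ
      rw [ends2_tog]
      rw [← sgn_xor, ← sgn_xor, ← sgn_xor] at hx ⊢
      rw [(sgn_cases _).resolve_left hx, neg_one_mul]
    have h2 : ∑ σ, ends2 n (tog x σ) = ∑ σ, ends2 n σ :=
      Equiv.sum_comp (Function.Involutive.toPerm (tog x) (tog_tog x)) (ends2 n)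
    simp only [h1, Finset.sum_neg_distrib] at h2
    linarith

/-- the bond that crosses an edge -/
def crs : Tor M × Fin 2 ≃ Tor M × Fin 2 where
  toFun e := (e.1 + uv M e.2, if e.2 = 0 then 1 else 0)
  invFun e := (e.1 - uv M (if e.2 = 0 then 1 else 0), if e.2 = 0 then 1 else 0)
  left_inv := by
    rintro ⟨x, d⟩
    fin_cases d <;> simp
  right_inv := by
    rintro ⟨x, d⟩
    fin_cases d <;> simp

theorem sgn_dom_crs (σ : Tor M → Bool) (e : Tor M × Fin 2) :
    sgn (dom σ (crs e)) = sgn (σ e.1) * sgn (σ (e.1 + uv M e.2)) := by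
  obtain ⟨x, d⟩ := e
  unfold dom
  rw [sgn_xor, mul_comm]
  fin_cases d <;> simp [crs]

theorem tc_pos : 0 < tc := by
  unfold tc
  have : (1 : ℝ) < √2 := Real.lt_sqrt_of_sq_lt (by norm_num)
  linarith

theorem tc_sq : (1 + tc) ^ 2 = 2 := by
  unfold tc
  rw [add_sub_cancel, Real.sq_sqrt (by norm_num)]

open Classical in
theorem self_dual : ∑ σ : Tor M → Bool, wt 1 tc (dom σ) =
    ∑ n : Tor M × Fin 2 → Bool, if IsEven n then wt 1 tc n else 0 := by
  have h1 : ∀ σ : Tor M → Bool, ∏ e, (tc * sgn (dom σ e) + 1) =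
      2 ^ Fintype.card (Tor M) * wt 1 tc (dom σ) := by
    intro σ
    have e : (2 : ℝ) ^ Fintype.card (Tor M) = ∏ _e : Tor M × Fin 2, (1 + tc) := by
      rw [Finset.prod_const, Finset.card_univ, Fintype.card_prod (Tor M), Fintype.card_fin,
        mul_comm, pow_mul, tc_sq]
    rw [e, wt, ← Finset.prod_mul_distrib]
    refine Finset.prod_congr rfl fun e _ => ?_
    unfold sgn
    split_ifs
    · rw [Pi.one_apply]
      linear_combination -tc_sq
    · ring
  have h2 : ∀ σ : Tor M → Bool, ∏ e, (tc * sgn (dom σ e) + 1) =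
      ∑ n : Tor M × Fin 2 → Bool, wt 1 tc n * ends2 n σ := by
    intro σ
    rw [← Equiv.prod_comp crs]
    have e : ∀ e : Tor M × Fin 2, tc * sgn (dom σ (crs e)) + 1 =
        ∑ b : Bool, if b then tc * sgn (dom σ (crs e)) else 1 := fun e => by simp
    simp only [e]
    rw [Finset.prod_univ_sum, Fintype.piFinset_univ]
    refine Finset.sum_congr rfl fun n _ => ?_
    rw [wt, ends2, ← Finset.prod_mul_distrib]
    refine Finset.prod_congr rfl fun e _ => ?_
    split_ifs
    · rw [sgn_dom_crs, Pi.one_apply, mul_one]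
    · rw [mul_one]
  have h3 : (2 : ℝ) ^ Fintype.card (Tor M) ≠ 0 := by positivity
  refine mul_left_cancel₀ h3 ?_
  rw [Finset.mul_sum, ← Finset.sum_congr rfl fun σ _ => h1 σ, Finset.sum_congr rfl fun σ _ => h2 σ,
    Finset.sum_comm, Finset.mul_sum]
  refine Finset.sum_congr rfl fun n _ => ?_
  rw [← Finset.mul_sum, sum_ends2]
  split_ifs
  · ring
  · ring

/-- the partition function of a homology class -/
noncomputable def Zc (M : ℕ) [NeZero M] (c : Bool × Bool) : ℝ :=
  ∑ σ : Tor M → Bool, wt 1 tc fun e => xor (dom σ e) (cyc c e)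

theorem wt_pos {x : ℝ} (hx : 0 < x) (n : Tor M × Fin 2 → Bool) : 0 < wt 1 x n := by
  refine Finset.prod_pos fun e _ => ?_
  split_ifs
  · simpa using hx
  · exact one_pos

theorem Zc_pos (c : Bool × Bool) : 0 < Zc M c :=
  Finset.sum_pos (fun _ _ => wt_pos tc_pos _) univ_nonempty

theorem Zc_dual : Zc M (false, false) =
    Zc M (true, false) + Zc M (false, true) + Zc M (true, true) := by
  classical
  have h := sum_cw (M := M) fun n => cw n * wt 1 tc n
  have e1 : ∑ n : Tor M × Fin 2 → Bool, cw n • (cw n * wt 1 tc n) = Zc M (false, false) := by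
    have e : Zc M (false, false) = ∑ σ : Tor M → Bool, wt 1 tc (dom σ) := by
      simp [Zc, cyc_ff]
    rw [e, self_dual]
    refine Finset.sum_congr rfl fun n _ => ?_
    split_ifs with hn
    · obtain ⟨σ, θ, rfl⟩ := hn.exists_dom_cyc
      rw [cw_dom_cyc]
      split_ifs <;> simp
    · rw [not_not.1 (mt isEven_of_cw hn), zero_smul]
  simp only [cw_dom_cyc, ← Finset.mul_sum] at h
  rw [e1, Fintype.sum_prod_type] at h
  simp only [Fintype.sum_bool] at h
  simp at h
  unfold Zc at *
  linarith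

theorem uint_par0 (n : Tor M × Fin 2 → Bool) : uint par0 n = 0 := by simp [uint, par0]

theorem Zw_free (θ : Bool × Bool) : Zw par0 (sec M θ) 1 = (1 / 2) * ∑ c : Bool × Bool,
    (if c = (false, false) then 1 else -1) * (sgn (θ.1 && c.1) * sgn (θ.2 && c.2)) * Zc M c := by
  have h := sum_cw (M := M) fun n => wt (sec M θ) tc n
  have e : ∀ n, wt (sec M θ) tc n = wt (sec M θ) 1 n * wt 1 tc n := fun n => by
    rw [← wt_mul, mul_one]
  have e2 : Zw par0 (sec M θ) 1 = ∑ n, cw n • wt (sec M θ) tc n := by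
    simp only [Zw, uint_par0, Real.exp_zero, Pi.one_apply, mul_one, smul_eq_mul]
    rfl
  rw [← e2] at h
  simp only [e, wt_sec_dom_cyc, ← Finset.mul_sum, smul_eq_mul, ← mul_assoc] at h
  unfold Zc
  simp only [← mul_assoc]
  rw [← h]
  ring

theorem Zw_ff : Zw par0 (sec M (false, false)) 1 = 0 := by
  rw [Zw_free, Fintype.sum_prod_type]
  simp [sgn, Zc_dual]
  ring

theorem Zw_tf : Zw par0 (sec M (true, false)) 1 = Zc M (true, false) + Zc M (true, true) := by
  rw [Zw_free, Fintype.sum_prod_type]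
  simp [sgn, Zc_dual]
  ring

theorem Zw_ft : Zw par0 (sec M (false, true)) 1 = Zc M (false, true) + Zc M (true, true) := by
  rw [Zw_free, Fintype.sum_prod_type]
  simp [sgn, Zc_dual]
  ring

theorem Zw_tt : Zw par0 (sec M (true, true)) 1 = Zc M (true, false) + Zc M (false, true) := by
  rw [Zw_free, Fintype.sum_prod_type]
  simp [sgn, Zc_dual]
  ring

end Vale.Agent.P144Z.I1
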