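import Vale.Agent.P144Z.I1.Flip

/-!
# Only even sets of edges have a sign; even sets with trivial periods are domain walls
-/

namespace Vale.Agent.P144Z.I1

open Finset Matrix

set_option linter.unusedSectionVars false

section Gauge

variable {S E : Type} [Fintype S] [DecidableEq S] [Fintype E] [DecidableEq E]

/-- multiplication of the fields by numbers -/
noncomputable def mulL (u : S → ℝ) : (S → ℝ) →ₗ[ℝ] (S → ℝ) := Matrix.toLin' (diagonal u)

theorem mulL_single (u : S → ℝ) (s : S) : mulL u (Pi.single s 1) = u s • Pi.single s 1 := by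
  funext t
  rw [mulL, Matrix.toLin'_apply, mulVec_diagonal, Pi.smul_apply, smul_eq_mul]
  by_cases h : t = s
  · rw [h]
  · rw [Pi.single_eq_of_ne h, mul_zero, mul_zero]

theorem om_mulL {C : Matrix S S ℝ} (hC : Cᵀ = -C) (u : S → ℝ)
    (hu : ∀ s t, u s * u t * C s t = C s t) (F : Gr S) :
    om C (ExteriorAlgebra.map (mulL u) F) = om C F := by
  rw [om_apply, om_apply, gauss_map hC hC (mulL u) (A1.mem_loc_univ F), aug_map]
  intro s _ t _
  rw [mulL_single, mulL_single, mulVec_smul, smul_dotProduct, dotProduct_smul, single_dotProduct,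
    mulVec_single_one, one_mul, smul_eq_mul, smul_eq_mul, ← mul_assoc]
  exact hu s t

theorem map_mono (a b : E → S) (u : S → ℝ) (n : E → Bool) :
    ExteriorAlgebra.map (mulL u) (Ev.val (mono a b n)) =
      (∏ e, if n e then u (a e) * u (b e) else 1) • Ev.val (mono a b n) := by
  unfold mono
  induction (univ : Finset E) using Finset.induction_on with
  | empty => simp
  | insert e s he ih =>
    rw [prod_insert he, prod_insert he, map_mul, map_mul, ih, ← smul_mul_smul_comm]
    refine congrArg (· * _) ?_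
    split_ifs
    · rw [val_pp, map_mul, A1.map_psi, A1.map_psi, mulL_single, mulL_single, A1.psi_smul,
        A1.psi_smul, smul_mul_smul_comm]
    · rw [map_one, map_one, one_smul]

theorem om_mono_gauge {C : Matrix S S ℝ} (hC : Cᵀ = -C) (u : S → ℝ)
    (hu : ∀ s t, u s * u t * C s t = C s t) (a b : E → S) (n : E → Bool) :
    (∏ e, if n e then u (a e) * u (b e) else 1) * om C (Ev.val (mono a b n)) =
      om C (Ev.val (mono a b n)) := by
  rw [← smul_eq_mul, ← map_smul, ← map_mono, om_mulL hC u hu]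

end Gauge

theorem sgn_xor (a b : Bool) : sgn (xor a b) = sgn a * sgn b := by
  cases a <;> cases b <;> simp [sgn]

theorem sgn_mul_self (a : Bool) : sgn a * sgn a = 1 := by cases a <;> simp [sgn]

theorem sgn_cases (a : Bool) : sgn a = 1 ∨ sgn a = -1 := by cases a <;> simp [sgn]

theorem sgn_inj {a b : Bool} (h : sgn a = sgn b) : a = b := by
  cases a <;> cases b <;> simp [sgn] at h ⊢ <;> norm_num at h

variable {M : ℕ} [NeZero M]

/-- gauge invariance of the sign -/
theorem cw_gauge (u : Tor M → ℝ) (hu : IsSign u) (n : Tor M × Fin 2 → Bool) :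
    (∏ e, if n e then u e.1 * u (e.1 + uv M e.2) else 1) * cw n = cw n := by
  rw [cw_eq]
  refine om_mono_gauge G0_anti (Sum.elim (fun s => u s.1) fun _ => 1) ?_ ea eb n
  rintro (s | s) (t | t)
  · show u s.1 * u t.1 * (if s.1 = t.1 then gA s.2 t.2 else 0) =
      (if s.1 = t.1 then gA s.2 t.2 else 0)
    split_ifs with h
    · rw [← h]
      rcases hu s.1 with h1 | h1 <;> simp [h1]
    · rw [mul_zero]
  · exact t.1.elim
  · exact s.1.elim
  · exact s.1.elim

/-- every point has an even number of edges -/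
def IsEven (n : Tor M × Fin 2 → Bool) : Prop :=
  ∀ x, sgn (n (x, 0)) * sgn (n (x, 1)) * (sgn (n (x - uv M 0, 0)) * sgn (n (x - uv M 1, 1))) = 1

theorem isEven_of_cw {n : Tor M × Fin 2 → Bool} (h : cw n ≠ 0) : IsEven n := by
  intro x
  have h1 := cw_gauge (fun y => if y = x then -1 else 1) (fun y => by
    by_cases hy : y = x <;> simp [hy]) n
  have h2 := mul_right_cancel₀ h (h1.trans (one_mul _).symm)
  have h3 : ∀ (φ : Fin 2 → Tor M), (∏ e : Tor M × Fin 2,
      if n e then (if e.1 = φ e.2 then (-1 : ℝ) else 1) else 1) =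
        sgn (n (φ 0, 0)) * sgn (n (φ 1, 1)) := by
    intro φ
    rw [Fintype.prod_prod_type_right, Fin.prod_univ_two]
    have h4 : ∀ i, (∏ y : Tor M, if n (y, i) then (if y = φ i then (-1 : ℝ) else 1) else 1) =
        sgn (n (φ i, i)) := by
      intro i
      rw [Finset.prod_eq_single (φ i)]
      · simp [sgn]
      · intro y _ hy
        simp [hy]
      · intro hi
        exact absurd (mem_univ _) hi
    rw [h4, h4]
  rw [← h3 fun _ => x, ← h3 fun i => x - uv M i, ← Finset.prod_mul_distrib, ← h2]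
  refine Finset.prod_congr rfl fun e _ => ?_
  split_ifs <;> simp_all [eq_sub_iff_add_eq]

section Prim

variable {G : Type}

theorem const_of_step (h : ZMod M → G) (hs : ∀ j, h j = h (j - 1)) (j : ZMod M) : h j = h 0 := by
  have key : ∀ k : ℕ, h k = h 0 := by
    intro k
    induction k with
    | zero => rw [Nat.cast_zero]
    | succ k ih => rw [hs, Nat.cast_succ, add_sub_cancel_right, ih]
  rw [← key j.val, ZMod.natCast_zmod_val]

theorem const_of_steps (h : Tor M → G) (h0 : ∀ x, h x = h (x - uv M 0))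
    (h1 : ∀ x, h x = h (x - uv M 1)) (x : Tor M) : h x = h 0 := by
  obtain ⟨i, j⟩ := x
  refine (const_of_step (fun i => h (i, j)) (fun i => ?_) i).trans
    (const_of_step (fun j => h (0, j)) (fun j => ?_) j)
  · rw [h0]
    simp [uv]
  · rw [h1]
    simp [uv]

variable [CommMonoid G]

/-- the product of `a 1, …, a j` -/
def prim (a : ZMod M → G) (j : ZMod M) : G := ∏ k ∈ range j.val, a ((k + 1 : ℕ) : ZMod M)

theorem prim_zero (a : ZMod M → G) : prim a 0 = 1 := by simp [prim]

theorem prod_zmod (a : ZMod M → G) : ∏ j, a j = ∏ k ∈ range M, a k := by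
  symm
  refine Finset.prod_bij (fun k _ => (k : ZMod M)) (fun _ _ => mem_univ _) ?_ ?_ fun _ _ => rfl
  · intro k hk k' hk' h
    have := congrArg ZMod.val h
    rwa [ZMod.val_natCast_of_lt (mem_range.1 hk), ZMod.val_natCast_of_lt (mem_range.1 hk')] at this
  · intro j _
    exact ⟨j.val, mem_range.2 (ZMod.val_lt j), ZMod.natCast_zmod_val j⟩

theorem prim_step (a : ZMod M → G) (ha : ∏ j, a j = 1) (j : ZMod M) :
    prim a j = prim a (j - 1) * a j := by
  have hlt := ZMod.val_lt (j - 1)
  have e : (((j - 1).val + 1 : ℕ) : ZMod M) = j := by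
    rw [Nat.cast_succ, ZMod.natCast_zmod_val, sub_add_cancel]
  have e2 : prim a (j - 1) * a j = ∏ k ∈ range ((j - 1).val + 1), a ((k + 1 : ℕ) : ZMod M) := by
    rw [Finset.prod_range_succ, e]
    rfl
  rw [e2]
  rcases (Nat.succ_le_of_lt hlt).eq_or_lt with h | h
  · have h' : (j - 1).val + 1 = M := h
    rw [h'] at e ⊢
    rw [← e, ZMod.natCast_self, prim_zero, ← ha]
    rw [← Equiv.prod_comp (Equiv.addRight 1), prod_zmod]
    refine Finset.prod_congr rfl fun k _ => ?_
    rw [Nat.cast_succ]
    rfl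
  · unfold prim
    rw [← e, ZMod.val_natCast_of_lt h, e]

end Prim

/-- the parity of the horizontal edges that start in the column `c` -/
noncomputable def per0 (n : Tor M × Fin 2 → Bool) (c : ZMod M) : ℝ := ∏ j, sgn (n ((c, j), 0))

/-- the parity of the vertical edges that start in the row `c` -/
noncomputable def per1 (n : Tor M × Fin 2 → Bool) (c : ZMod M) : ℝ := ∏ i, sgn (n ((i, c), 1))

theorem prod_sgn_cases {α : Type} (s : Finset α) (f : α → Bool) :
    ∏ i ∈ s, sgn (f i) = 1 ∨ ∏ i ∈ s, sgn (f i) = -1 := by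
  refine Finset.prod_induction _ (fun c : ℝ => c = 1 ∨ c = -1) ?_ (Or.inl rfl)
    fun i _ => sgn_cases _
  rintro a b (rfl | rfl) (rfl | rfl) <;> simp

theorem sub0 (i j : ZMod M) : ((i, j) : Tor M) - uv M 0 = (i - 1, j) := by simp [uv]

theorem sub1 (i j : ZMod M) : ((i, j) : Tor M) - uv M 1 = (i, j - 1) := by simp [uv]

theorem IsEven.eq {n : Tor M × Fin 2 → Bool} (h : IsEven n) (i j : ZMod M) :
    sgn (n ((i, j), 0)) * sgn (n ((i, j - 1), 1)) =
      sgn (n ((i - 1, j), 0)) * sgn (n ((i, j), 1)) := by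
  have h1 := h (i, j)
  rw [sub0, sub1] at h1
  rcases sgn_cases (n ((i, j), 0)) with a | a <;> rcases sgn_cases (n ((i, j), 1)) with b | b <;>
    rcases sgn_cases (n ((i - 1, j), 0)) with c | c <;>
    rcases sgn_cases (n ((i, j - 1), 1)) with d | d <;>
    rw [a, b, c, d] at h1 ⊢ <;> linarith

theorem prod_sub_one (f : ZMod M → ℝ) : ∏ j, f (j - 1) = ∏ j, f j :=
  Equiv.prod_comp (Equiv.subRight 1) f

theorem IsEven.per0_eq {n : Tor M × Fin 2 → Bool} (h : IsEven n) (c : ZMod M) :
    per0 n c = per0 n 0 := by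
  refine const_of_step (per0 n) (fun i => ?_) c
  have h1 : (∏ j, sgn (n ((i, j), 0)) * sgn (n ((i, j - 1), 1))) =
      ∏ j, sgn (n ((i - 1, j), 0)) * sgn (n ((i, j), 1)) :=
    Finset.prod_congr rfl fun j _ => h.eq i j
  rw [Finset.prod_mul_distrib, Finset.prod_mul_distrib,
    prod_sub_one fun j => sgn (n ((i, j), 1))] at h1
  refine mul_right_cancel₀ ?_ h1
  rcases prod_sgn_cases univ fun j => n ((i, j), 1) with h2 | h2 <;> rw [h2] <;> norm_num

theorem IsEven.per1_eq {n : Tor M × Fin 2 → Bool} (h : IsEven n) (c : ZMod M) :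
    per1 n c = per1 n 0 := by
  refine const_of_step (per1 n) (fun j => ?_) c
  have h1 : (∏ i, sgn (n ((i, j), 0)) * sgn (n ((i, j - 1), 1))) =
      ∏ i, sgn (n ((i - 1, j), 0)) * sgn (n ((i, j), 1)) :=
    Finset.prod_congr rfl fun i _ => h.eq i j
  rw [Finset.prod_mul_distrib, Finset.prod_mul_distrib,
    prod_sub_one fun i => sgn (n ((i, j), 0))] at h1
  refine (mul_left_cancel₀ ?_ h1).symm
  rcases prod_sgn_cases univ fun i => n ((i, j), 0) with h2 | h2 <;> rw [h2] <;> norm_num

/-- an even set of edges with trivial periods is the set of domain walls of a configuration -/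
theorem IsEven.exists_dom {n : Tor M × Fin 2 → Bool} (h : IsEven n) (h0 : per0 n 0 = 1)
    (h1 : per1 n 0 = 1) : ∃ σ, dom σ = n := by
  let s : Tor M → ℝ := fun x =>
    prim (fun j => sgn (n ((0, j), 0))) x.2 * prim (fun i => sgn (n ((i, x.2), 1))) x.1
  have hs : ∀ x, s x = 1 ∨ s x = -1 := by
    intro x
    rcases prod_sgn_cases (range x.2.val) fun k => n ((0, ((k + 1 : ℕ) : ZMod M)), 0) with a | a <;>
      rcases prod_sgn_cases (range x.1.val) fun k => n ((((k + 1 : ℕ) : ZMod M), x.2), 1)
        with b | b <;>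
      simp only [s, prim, a, b] <;> norm_num
  have d0 : ∀ i j, s (i, j) = s (i - 1, j) * sgn (n ((i, j), 1)) := by
    intro i j
    simp only [s]
    rw [prim_step (fun i => sgn (n ((i, j), 1))) ((h.per1_eq j).trans h1) i, mul_assoc]
  have d1 : ∀ i j, s (i, j) * s (i, j - 1) * sgn (n ((i, j), 0)) = 1 := by
    intro i j
    refine (const_of_step (fun i => s (i, j) * s (i, j - 1) * sgn (n ((i, j), 0))) (fun i => ?_)
      i).trans ?_
    · rw [d0 i j, d0 i (j - 1)]
      have e := h.eq i j
      have e2 := sgn_mul_self (n ((i, j), 1))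
      linear_combination (s (i - 1, j) * s (i - 1, j - 1) * sgn (n ((i, j), 1))) * e +
        (s (i - 1, j) * s (i - 1, j - 1) * sgn (n ((i - 1, j), 0))) * e2
    · simp only [s, prim_zero, mul_one]
      rw [prim_step (fun j => sgn (n ((0, j), 0))) h0 j]
      have e2 := sgn_mul_self (n ((0, j), 0))
      have e3 := hs (0, j - 1)
      simp only [s, prim_zero, mul_one] at e3
      rcases e3 with e3 | e3 <;> rw [e3] <;> linear_combination e2
  have hσ : ∀ x, sgn (decide (s x = -1)) = s x := by
    intro x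
    rcases hs x with a | a <;> rw [a] <;> norm_num [sgn]
  refine ⟨fun x => decide (s x = -1), funext fun ⟨⟨i, j⟩, d⟩ => sgn_inj ?_⟩
  unfold dom
  rw [sgn_xor, hσ, hσ]
  fin_cases d
  · show s (i, j) * s ((i, j) - uv M 1) = sgn (n ((i, j), 0))
    rw [sub1]
    have e2 := sgn_mul_self (n ((i, j), 0))
    linear_combination sgn (n ((i, j), 0)) * d1 i j - s (i, j) * s (i, j - 1) * e2
  · show s (i, j) * s ((i, j) - uv M 0) = sgn (n ((i, j), 1))
    rw [sub0, d0 i j]
    rcases hs (i - 1, j) with a | a <;> rw [a] <;> ring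

theorem per0_dom (σ : Tor M → Bool) (c : ZMod M) : per0 (dom σ) c = 1 := by
  have e : ∀ j, sgn (dom σ ((c, j), 0)) = sgn (σ (c, j)) * sgn (σ (c, j - 1)) := fun j => by
    rw [← sgn_xor, ← sub1]
    rfl
  unfold per0
  simp only [e]
  rw [Finset.prod_mul_distrib, prod_sub_one fun j => sgn (σ (c, j)), ← Finset.prod_mul_distrib]
  exact Finset.prod_eq_one fun j _ => sgn_mul_self _

theorem per1_dom (σ : Tor M → Bool) (c : ZMod M) : per1 (dom σ) c = 1 := by
  have e : ∀ i, sgn (dom σ ((i, c), 1)) = sgn (σ (i, c)) * sgn (σ (i - 1, c)) := fun i => by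
    rw [← sgn_xor, ← sub0]
    rfl
  unfold per1
  simp only [e]
  rw [Finset.prod_mul_distrib, prod_sub_one fun i => sgn (σ (i, c)), ← Finset.prod_mul_distrib]
  exact Finset.prod_eq_one fun j _ => sgn_mul_self _

theorem dom_not (σ : Tor M → Bool) : dom (fun x => !σ x) = dom σ := by
  funext e
  simp [dom]

theorem dom_eq_iff (σ τ : Tor M → Bool) : dom τ = dom σ ↔ τ = σ ∨ τ = fun x => !σ x := by
  refine ⟨fun h => ?_, ?_⟩
  · have hc := const_of_steps (fun x => xor (τ x) (σ x)) (fun x => ?_) (fun x => ?_)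
    · cases h0 : xor (τ 0) (σ 0)
      · left
        funext x
        have := (hc x).trans h0
        revert this
        cases τ x <;> cases σ x <;> simp
      · right
        funext x
        have := (hc x).trans h0
        revert this
        cases τ x <;> cases σ x <;> simp
    · have h1 : xor (τ x) (τ (x - uv M 0)) = xor (σ x) (σ (x - uv M 0)) := congrFun h (x, 1)
      revert h1
      cases τ x <;> cases σ x <;> cases τ (x - uv M 0) <;> cases σ (x - uv M 0) <;> simp
    · have h1 : xor (τ x) (τ (x - uv M 1)) = xor (σ x) (σ (x - uv M 1)) := congrFun h (x, 0)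
      revert h1
      cases τ x <;> cases σ x <;> cases τ (x - uv M 1) <;> cases σ (x - uv M 1) <;> simp
  · rintro (rfl | rfl)
    · rfl
    · exact dom_not σ

end Vale.Agent.P144Z.I1
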