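import Vale.Agent.P144Z.I1.Sec

/-!
# The sign of the straight cycles; homology classes of even sets of edges
-/

namespace Vale.Agent.P144Z.I1

open Finset Matrix

set_option linter.unusedSectionVars false

section Par

variable {S E : Type} [Fintype S] [DecidableEq S] [Fintype E] [DecidableEq E] {a b : E → S}

theorem gam_smul (ε : ℝ) (s : S) (c : ℝ) (F : Gr S) : gam ε s (c • F) = c • gam ε s F := by
  unfold gam
  rw [map_smul, mul_smul_comm, smul_comm, smul_add]

/-- the parity of one generator -/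
noncomputable def par (s : S) (F : Gr S) : Gr S := gam 1 s (gam (-1) s F)

theorem par_gam {s t : S} (h : s ≠ t) (ε : ℝ) (F : Gr S) : par s (gam ε t F) = gam ε t (par s F) := by
  unfold par
  rw [gam_anti (Or.inl h), gam_neg, gam_anti (Or.inl h), neg_neg]

theorem par_of_del {s : S} {F : Gr S} (h : del (Pi.single s 1) F = 0) : par s F = F := by
  simp [par, gam, h, gen_gen, A1.del_gen_mul]

theorem par_gen_mul (s : S) {F : Gr S} (h : del (Pi.single s 1) F = 0) :
    par s (gen s * F) = -(gen s * F) := by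
  simp [par, gam, h, gen_gen, A1.del_gen_mul]

theorem par_mono (h : Ends a b) (e : E) (n : E → Bool) :
    par (a e) (Ev.val (mono a b n)) = sgn (n e) • Ev.val (mono a b n) ∧
      par (b e) (Ev.val (mono a b n)) = sgn (n e) • Ev.val (mono a b n) := by
  rw [mono_split n e]
  have hm := prod_mem (a := a) (b := b) (univ.erase e) n (T := {s | s ≠ a e ∧ s ≠ b e})
    fun e' he' _ => ⟨⟨h.ia.ne (ne_of_mem_erase he'), h.ne _ _⟩,
      ⟨(h.ne _ _).symm, h.ib.ne (ne_of_mem_erase he')⟩⟩
  generalize Ev.val (∏ e' ∈ univ.erase e,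
      if n e' then pp (Pi.single (a e') 1) (Pi.single (b e') 1) else 1) = X at hm
  have ha : del (Pi.single (a e) 1) X = 0 :=
    A1.del_eq_zero hm fun s hs => Pi.single_eq_of_ne hs.1 _
  have hb : del (Pi.single (b e) 1) X = 0 :=
    A1.del_eq_zero hm fun s hs => Pi.single_eq_of_ne hs.2 _
  have hab : (Pi.single (a e) 1 : S → ℝ) (b e) = 0 := Pi.single_eq_of_ne (h.ne _ _).symm _
  have hba : (Pi.single (b e) 1 : S → ℝ) (a e) = 0 := Pi.single_eq_of_ne (h.ne _ _) _
  cases n e
  · simp [sgn, par_of_del ha, par_of_del hb]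
  · simp only [if_true, sgn, mul_assoc, neg_smul, one_smul]
    refine ⟨par_gen_mul _ (by simp [A1.del_gen_mul, ha, hab]), ?_⟩
    rw [gen_swap, neg_neg, ← neg_one_smul ℝ]
    unfold par
    rw [gam_smul, gam_smul, neg_one_smul, neg_eq_iff_eq_neg]
    exact par_gen_mul _ (by simp [A1.del_gen_mul, hb, hba])

end Par

variable {M : ℕ} [NeZero M]

theorem rel02 (x : Tor M) {F : Gr (SS M)} {c : ℝ} (hc : c * c = 1) (h : par (fs x 1) F = c • F) :
    om (G0 M) (gam 1 (fs x 0) (gam (-1) (fs x 2) F)) = -c * om (G0 M) F := by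
  have h1 : om (G0 M) (gam 1 (fs x 0) (gam (-1) (fs x 2) (par (fs x 1) F))) = -om (G0 M) F := by
    rw [← par_gam (fs_ne (by decide))]
    unfold par
    rw [gam_anti (s := fs x 1) (t := fs x 1) (Or.inr (add_neg_cancel 1)), gam_neg, map_neg,
      ← rel01, gam_sq, neg_smul, one_smul, map_neg, rel12, gam_sq, neg_smul, one_smul, map_neg,
      neg_neg]
  rw [h, gam_smul, gam_smul, map_smul, smul_eq_mul] at h1
  linear_combination c * h1 - om (G0 M) (gam 1 (fs x 0) (gam (-1) (fs x 2) F)) * hc

theorem rel13 (x : Tor M) {F : Gr (SS M)} {c : ℝ} (hc : c * c = 1) (h : par (fs x 2) F = c • F) :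
    om (G0 M) (gam 1 (fs x 1) (gam (-1) (fs x 3) F)) = -c * om (G0 M) F := by
  have h1 : om (G0 M) (gam 1 (fs x 1) (gam (-1) (fs x 3) (par (fs x 2) F))) = -om (G0 M) F := by
    rw [← par_gam (fs_ne (by decide))]
    unfold par
    rw [gam_anti (s := fs x 2) (t := fs x 2) (Or.inr (add_neg_cancel 1)), gam_neg, map_neg,
      rel12, gam_sq, neg_smul, one_smul, map_neg, rel23, gam_sq, neg_smul, one_smul, map_neg]
    simp only [neg_neg]
  rw [h, gam_smul, gam_smul, map_smul, smul_eq_mul] at h1
  linear_combination c * h1 - om (G0 M) (gam 1 (fs x 1) (gam (-1) (fs x 3) F)) * hc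

/-- the abstract argument along a closed line -/
theorem cw_line (d : Fin 2) (p q r : Fin 4) (hpq : p ≠ q) (hrp : r ≠ p) (hrq : r ≠ q)
    (pt : ℕ → Tor M) (hpt : ∀ k, pt (k + 1) = pt k + uv M d) (hM : pt M = pt 0)
    (hne : ∀ k, k + 1 < M → pt (k + 1) ≠ pt 0)
    (htog : ∀ x n, Ev.val (mono ea eb (tog (x, d) n)) =
      gam 1 (fs x p) (gam (-1) (fs (x + uv M d) q) (Ev.val (mono ea eb n))))
    (hrel : ∀ (x : Tor M) {F : Gr (SS M)} {c : ℝ}, c * c = 1 → par (fs x r) F = c • F →
      om (G0 M) (gam 1 (fs x p) (gam (-1) (fs x q) F)) = -c * om (G0 M) F)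
    (N : ℕ → Tor M × Fin 2 → Bool) (hN : ∀ k, k < M → N (k + 1) = tog (pt k, d) (N k))
    (c : ℕ → ℝ) (hc : ∀ k, c k * c k = 1)
    (hpar : ∀ k j, par (fs (pt k) r) (Ev.val (mono ea eb (N j))) =
      c k • Ev.val (mono ea eb (N j))) :
    cw (N M) = -(∏ k ∈ range M, c k) * cw (N 0) := by
  have key : ∀ k, k < M → om (G0 M) (gam 1 (fs (pt k) p) (gam (-1) (fs (pt 0) q)
      (Ev.val (mono ea eb (N k))))) = -(∏ j ∈ range (k + 1), c j) * cw (N 0) := by
    intro k
    induction k with
    | zero =>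
      intro _
      rw [hrel _ (hc 0) (hpar 0 0), cw_eq, zero_add, prod_range_one]
    | succ k ih =>
      intro hk
      have h1 : fs (pt 0) q ≠ fs (pt (k + 1)) q := fun e =>
        hne k hk (Prod.ext_iff.1 (Sum.inl_injective e)).1.symm
      rw [hN k (by omega), htog, ← hpt, gam_anti (s := fs (pt k) p) (Or.inl (fs_ne hpq)), gam_neg,
        gam_anti (Or.inl h1), neg_neg, hrel _ (hc (k + 1)) (by
          rw [par_gam (fs_ne hrq), par_gam (fs_ne hrp), hpar, gam_smul, gam_smul]),
        gam_anti (s := fs (pt 0) q) (Or.inl (fs_ne hpq.symm)), map_neg, ih (by omega),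
        prod_range_succ _ (k + 1)]
      ring
  obtain ⟨m, hm⟩ : ∃ m, M = m + 1 := Nat.exists_eq_succ_of_ne_zero (NeZero.ne M)
  have h2 := key m (by omega)
  have h3 : N M = tog (pt m, d) (N m) := by
    rw [← hN m (by omega), ← hm]
  rw [h3, cw_eq, htog, ← hpt, ← hm, hM, h2, ← hm]

theorem cast_ne {k : ℕ} (hk : k + 1 < M) : ((k + 1 : ℕ) : ZMod M) ≠ (0 : ℕ) := by
  intro h
  have := congrArg ZMod.val h
  rw [ZMod.val_natCast_of_lt hk, Nat.cast_zero, ZMod.val_zero] at this
  omega

theorem val_step (i : ZMod M) {k : ℕ} (hk : k < M) :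
    decide (i.val < k + 1) = xor (decide (i.val < k)) (decide (i = k)) := by
  have h : i = k ↔ i.val = k :=
    ⟨fun h => by rw [h, ZMod.val_natCast_of_lt hk], fun h => by rw [← h, ZMod.natCast_zmod_val]⟩
  rcases lt_trichotomy i.val k with h1 | h1 | h1
  · have h2 : ¬ i = k := fun e => h1.ne (h.1 e)
    simp [h1, h2, Nat.lt_succ_of_lt h1]
  · simp [h.2 h1, ZMod.val_natCast_of_lt hk]
  · have h2 : ¬ i = k := fun e => h1.ne' (h.1 e)
    have h3 : ¬ i.val < k + 1 := by omega
    simp [h2, h3, h1.not_gt]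

/-- adding the horizontal line of the row `j` -/
theorem cw_row (j : ZMod M) (n : Tor M × Fin 2 → Bool) :
    cw (fun e => xor (n e) (decide (e.2 = 0) && decide (e.1.2 = j))) = -per1 n j * cw n := by
  have h := cw_line (M := M) 0 0 2 1 (by decide) (by decide) (by decide) (fun k => ((k : ZMod M), j))
    (fun k => by simp [uv]) (by simp) (fun k hk e => cast_ne hk (Prod.ext_iff.1 e).1)
    (fun x n => tog0 x (one_mul 1) rfl n) rel02
    (fun k e => xor (n e) (decide (e.2 = 0) && decide (e.1.2 = j) && decide (e.1.1.val < k)))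
    (fun k hk => by
      funext ⟨⟨x, y⟩, d⟩
      simp only [tog, val_step x hk, Prod.mk.injEq, Bool.decide_and]
      generalize decide (d = 0) = u
      generalize decide (y = j) = v
      generalize decide (x.val < k) = w
      generalize decide (x = k) = z
      cases n ((x, y), d) <;> cases u <;> cases v <;> cases w <;> cases z <;> rfl)
    (fun k => sgn (n (((k : ZMod M), j), 1))) (fun _ => sgn_mul_self _) (fun k i => by
      have := (par_mono ends (((k : ZMod M), j), 1) (fun e => xor (n e)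
        (decide (e.2 = 0) && decide (e.1.2 = j) && decide (e.1.1.val < i)))).1
      simpa [ea, fs] using this)
  simp only [ZMod.val_lt, decide_true, Bool.and_true, Nat.not_lt_zero, decide_false,
    Bool.and_false, Bool.xor_false] at h
  rw [h, per1, prod_zmod]

/-- adding the vertical line of the column `i` -/
theorem cw_col (i : ZMod M) (n : Tor M × Fin 2 → Bool) :
    cw (fun e => xor (n e) (decide (e.2 = 1) && decide (e.1.1 = i))) =
      -per0 n (i - 1) * cw n := by
  have h := cw_line (M := M) 1 1 3 2 (by decide) (by decide) (by decide) (fun k => (i, (k : ZMod M)))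
    (fun k => by simp [uv]) (by simp) (fun k hk e => cast_ne hk (Prod.ext_iff.1 e).2)
    (fun x n => tog1 x (one_mul 1) rfl n) rel13
    (fun k e => xor (n e) (decide (e.2 = 1) && decide (e.1.1 = i) && decide (e.1.2.val < k)))
    (fun k hk => by
      funext ⟨⟨x, y⟩, d⟩
      simp only [tog, val_step y hk, Prod.mk.injEq, Bool.decide_and]
      generalize decide (d = 1) = u
      generalize decide (x = i) = v
      generalize decide (y.val < k) = w
      generalize decide (y = k) = z
      cases n ((x, y), d) <;> cases u <;> cases v <;> cases w <;> cases z <;> rfl)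
    (fun k => sgn (n ((i - 1, (k : ZMod M)), 0))) (fun _ => sgn_mul_self _) (fun k l => by
      have := (par_mono ends ((i - 1, (k : ZMod M)), 0) (fun e => xor (n e)
        (decide (e.2 = 1) && decide (e.1.1 = i) && decide (e.1.2.val < l)))).2
      simpa [eb, uv, fs] using this)
  simp only [ZMod.val_lt, decide_true, Bool.and_true, Nat.not_lt_zero, decide_false,
    Bool.and_false, Bool.xor_false] at h
  rw [h, per0, prod_zmod]

theorem per0_cyc (θ : Bool × Bool) (c : ZMod M) : per0 (cyc θ) c = sgn θ.1 := by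
  unfold per0
  rw [Finset.prod_eq_single 0]
  · simp [cyc]
  · intro j _ hj
    simp [cyc, hj, sgn]
  · intro h
    exact absurd (mem_univ _) h

theorem per1_cyc (θ : Bool × Bool) (c : ZMod M) : per1 (cyc θ) c = sgn θ.2 := by
  unfold per1
  rw [Finset.prod_eq_single 0]
  · simp [cyc]
  · intro j _ hj
    simp [cyc, hj, sgn]
  · intro h
    exact absurd (mem_univ _) h

theorem cyc_ff : cyc (M := M) (false, false) = fun _ => false := by
  funext e
  simp [cyc]

theorem cw_cyc (θ : Bool × Bool) :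
    cw (cyc (M := M) θ) = if θ = (false, false) then 1 else -1 := by
  have hr : ∀ b, cyc (M := M) (true, b) =
      fun e => xor (cyc (false, b) e) (decide (e.2 = 0) && decide (e.1.2 = 0)) := by
    intro b
    funext ⟨x, d⟩
    fin_cases d <;> simp [cyc]
  have hc : cyc (M := M) (false, true) =
      fun e => xor (cyc (false, false) e) (decide (e.2 = 1) && decide (e.1.1 = 0)) := by
    funext ⟨x, d⟩
    fin_cases d <;> simp [cyc]
  have h0 : cw (cyc (M := M) (false, false)) = 1 := by rw [cyc_ff, cw_empty]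
  have h1 : cw (cyc (M := M) (false, true)) = -1 := by
    rw [hc, cw_col, per0_cyc, h0]
    simp [sgn]
  obtain ⟨_ | _, _ | _⟩ := θ
  · simpa using h0
  · simpa using h1
  · rw [hr, cw_row, per1_cyc, h0]
    simp [sgn]
  · rw [hr, cw_row, per1_cyc, h1]
    simp [sgn]

theorem cw_dom_cyc (σ : Tor M → Bool) (θ : Bool × Bool) :
    cw (fun e => xor (dom σ e) (cyc θ e)) = if θ = (false, false) then 1 else -1 := by
  rw [cw_xor_dom, cw_cyc]

theorem per0_xor (n n' : Tor M × Fin 2 → Bool) (c : ZMod M) :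
    per0 (fun e => xor (n e) (n' e)) c = per0 n c * per0 n' c := by
  simp only [per0, sgn_xor, Finset.prod_mul_distrib]

theorem per1_xor (n n' : Tor M × Fin 2 → Bool) (c : ZMod M) :
    per1 (fun e => xor (n e) (n' e)) c = per1 n c * per1 n' c := by
  simp only [per1, sgn_xor, Finset.prod_mul_distrib]

theorem IsEven.xor {n n' : Tor M × Fin 2 → Bool} (h : IsEven n) (h' : IsEven n') :
    IsEven fun e => xor (n e) (n' e) := by
  intro x
  simp only [sgn_xor]
  linear_combination (sgn (n' (x, 0)) * sgn (n' (x, 1)) *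
    (sgn (n' (x - uv M 0, 0)) * sgn (n' (x - uv M 1, 1)))) * h x + h' x

theorem isEven_cyc (θ : Bool × Bool) : IsEven (cyc (M := M) θ) :=
  isEven_of_cw (by rw [cw_cyc]; split_ifs <;> norm_num)

theorem isEven_dom (σ : Tor M → Bool) : IsEven (dom σ) :=
  isEven_of_cw (by rw [cw_dom]; norm_num)

/-- every even set of edges is a set of domain walls plus straight cycles -/
theorem IsEven.exists_dom_cyc {n : Tor M × Fin 2 → Bool} (h : IsEven n) :
    ∃ σ θ, n = fun e => Bool.xor (dom σ e) (cyc θ e) := by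
  have hs : ∀ c : ℝ, c = 1 ∨ c = -1 → c * sgn (decide (c = -1)) = 1 := by
    rintro c (rfl | rfl) <;> norm_num [sgn]
  obtain ⟨σ, hσ⟩ := (h.xor (isEven_cyc (decide (per0 n 0 = -1), decide (per1 n 0 = -1)))).exists_dom
    (by rw [per0_xor, per0_cyc]; exact hs _ (prod_sgn_cases _ _))
    (by rw [per1_xor, per1_cyc]; exact hs _ (prod_sgn_cases _ _))
  refine ⟨σ, (decide (per0 n 0 = -1), decide (per1 n 0 = -1)), funext fun e => ?_⟩
  rw [hσ]
  simp

theorem cw_cases (n : Tor M × Fin 2 → Bool) : cw n = 0 ∨ cw n = 1 ∨ cw n = -1 := by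
  by_cases h : cw n = 0
  · exact Or.inl h
  obtain ⟨σ, θ, rfl⟩ := (isEven_of_cw h).exists_dom_cyc
  rw [cw_dom_cyc]
  split_ifs <;> simp

theorem abs_cw_le (n : Tor M × Fin 2 → Bool) : |cw n| ≤ 1 := by
  rcases cw_cases n with h | h | h <;> simp [h]

theorem wt_sec_dom_cyc (θ' : Bool × Bool) (σ : Tor M → Bool) (θ : Bool × Bool) :
    wt (sec M θ') 1 (fun e => xor (dom σ e) (cyc θ e)) =
      sgn (θ'.1 && θ.1) * sgn (θ'.2 && θ.2) := by
  rw [wt_sec, per0_xor, per1_xor, per0_dom, per1_dom, per0_cyc, per1_cyc]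
  obtain ⟨_ | _, _ | _⟩ := θ' <;> simp [sgn]

/-- **Sum over homology classes.** -/
theorem sum_cw {V : Type} [AddCommGroup V] [Module ℝ V] (f : (Tor M × Fin 2 → Bool) → V) :
    (2 : ℝ) • ∑ n, cw n • f n = ∑ θ : Bool × Bool, (if θ = (false, false) then (1 : ℝ) else -1) •
      ∑ σ : Tor M → Bool, f fun e => xor (dom σ e) (cyc θ e) := by
  classical
  have e : ∀ θ : Bool × Bool, (if θ = (false, false) then (1 : ℝ) else -1) •
      ∑ σ : Tor M → Bool, f (fun e => xor (dom σ e) (cyc θ e)) =
      ∑ σ : Tor M → Bool, cw (fun e => xor (dom σ e) (cyc θ e)) •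
        f fun e => xor (dom σ e) (cyc θ e) := by
    intro θ
    simp only [cw_dom_cyc, Finset.smul_sum]
  simp only [e]
  rw [← Fintype.sum_prod_type', ← Finset.sum_fiberwise univ
    (fun p : (Bool × Bool) × (Tor M → Bool) => fun e => xor (dom p.2 e) (cyc p.1 e)),
    Finset.smul_sum]
  refine Finset.sum_congr rfl fun n _ => ?_
  rw [Finset.sum_congr rfl fun p hp => congrArg (fun m => cw m • f m) (mem_filter.1 hp).2,
    Finset.sum_const, ← Nat.cast_smul_eq_nsmul ℝ]
  by_cases h : cw n = 0
  · simp [h]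
  obtain ⟨σ, θ, rfl⟩ := (isEven_of_cw h).exists_dom_cyc
  have e2 : (univ.filter fun p : (Bool × Bool) × (Tor M → Bool) =>
      (fun e => xor (dom p.2 e) (cyc p.1 e)) = fun e => xor (dom σ e) (cyc θ e)) =
      {(θ, σ), (θ, fun x => !σ x)} := by
    ext ⟨θ', τ⟩
    simp only [mem_filter, mem_univ, true_and, mem_insert, mem_singleton, Prod.mk.injEq]
    rw [← and_or_left, ← dom_eq_iff]
    constructor
    · intro h1
      have h2 := congrArg (per0 · 0) h1
      have h3 := congrArg (per1 · 0) h1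
      simp only [per0_xor, per1_xor, per0_dom, per1_dom, per0_cyc, per1_cyc, one_mul] at h2 h3
      obtain rfl : θ' = θ := Prod.ext (sgn_inj h2) (sgn_inj h3)
      exact ⟨rfl, funext fun e => by simpa using congrFun h1 e⟩
    · rintro ⟨rfl, h1⟩
      rw [h1]
  rw [e2, Finset.card_pair, Nat.cast_ofNat]
  intro h
  have := congrFun (Prod.ext_iff.1 h).2 0
  simp at this

end Vale.Agent.P144Z.I1
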