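import Vale.Agent.P144Z.A1.Main

/-!
# Majorana operators on the Grassmann algebra; they switch edge monomials on and off
-/

namespace Vale.Agent.P144Z.I1

open Finset Matrix

set_option linter.unusedSectionVars false

variable {S : Type} [Fintype S] [DecidableEq S]

/-- multiplication by a generator plus `ε` times the derivative -/
noncomputable def gam (ε : ℝ) (s : S) (F : Gr S) : Gr S := gen s * F + ε • del (Pi.single s 1) F

theorem gam_neg (ε : ℝ) (s : S) (F : Gr S) : gam ε s (-F) = -gam ε s F := by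
  unfold gam
  rw [map_neg, mul_neg, smul_neg, neg_add]

theorem gen_swap (s t : S) (F : Gr S) : gen s * (gen t * F) = -(gen t * (gen s * F)) := by
  rw [← mul_assoc, ← mul_assoc, ← neg_mul]
  exact congrArg (· * F) (A1.psi_swap _ _)

theorem gen_gen (s : S) (F : Gr S) : gen s * (gen s * F) = 0 := by
  rw [← mul_assoc]
  exact (congrArg (· * F) (A1.psi_sq _)).trans (zero_mul F)

theorem gam_gam (ε ε' : ℝ) (s t : S) (F : Gr S) :
    gam ε s (gam ε' t F) + gam ε' t (gam ε s F) = (if s = t then ε + ε' else 0) • F := by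
  unfold gam
  simp only [mul_add, map_add, map_smul, A1.del_gen_mul, mul_smul_comm, smul_add, smul_sub,
    smul_smul]
  rw [gen_swap t s, A1.del_comm (Pi.single t 1) (Pi.single s 1), mul_comm ε' ε]
  by_cases h : s = t
  · subst h
    simp only [Pi.single_eq_same, mul_one, if_true, add_smul, smul_neg]
    abel
  · rw [if_neg h, Pi.single_eq_of_ne h, Pi.single_eq_of_ne (Ne.symm h)]
    simp only [mul_zero, zero_smul, smul_neg]
    abel

theorem gam_anti {ε ε' : ℝ} {s t : S} (h : s ≠ t ∨ ε + ε' = 0) (F : Gr S) :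
    gam ε s (gam ε' t F) = -gam ε' t (gam ε s F) := by
  refine eq_neg_of_add_eq_zero_left ((gam_gam ε ε' s t F).trans ?_)
  rcases h with h | h
  · rw [if_neg h, zero_smul]
  · rw [h, ite_self, zero_smul]

theorem gam_sq (ε : ℝ) (s : S) (F : Gr S) : gam ε s (gam ε s F) = ε • F := by
  have h := gam_gam ε ε s s F
  rw [if_pos rfl, ← two_smul ℝ, ← two_mul, mul_smul] at h
  exact smul_right_injective _ (two_ne_zero (α := ℝ)) h

theorem del_gam (g : S → ℝ) (ε : ℝ) (s : S) (F : Gr S) :
    del g (gam ε s F) = g s • F - gam ε s (del g F) := by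
  unfold gam
  rw [map_add, map_smul, A1.del_gen_mul, A1.del_comm g, smul_neg]
  abel

/-- the Gaussian expectation -/
noncomputable def om (C : Matrix S S ℝ) : Gr S →ₗ[ℝ] ℝ := aug.toLinearMap ∘ₗ gauss C

theorem om_apply (C : Matrix S S ℝ) (F : Gr S) : om C F = aug (gauss C F) := rfl

theorem om_one (C : Matrix S S ℝ) : om C 1 = 1 := by rw [om_apply, gauss_one, map_one]

theorem om_psi_mul {C : Matrix S S ℝ} (hC : Cᵀ = -C) (δ : S → ℝ) (F : Gr S) :
    om C (psi δ * F) = om C (del (δ ᵥ* C) F) := by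
  rw [om_apply, om_apply, gauss_psi_mul hC, map_add, map_mul, A1.aug_psi, zero_mul, zero_add,
    gauss_del]

theorem om_gen_mul {C : Matrix S S ℝ} (hC : Cᵀ = -C) (s : S) (F : Gr S) :
    om C (gen s * F) = om C (del (C s) F) := by
  have h := om_psi_mul hC (Pi.single s 1) F
  rw [single_vecMul, one_smul] at h
  exact h

theorem om_gam {C : Matrix S S ℝ} (hC : Cᵀ = -C) (ε : ℝ) (s : S) (F : Gr S) :
    om C (gam ε s F) = om C (del (C s + ε • Pi.single s 1) F) := by
  unfold gam
  rw [map_add, om_gen_mul hC, A1.del_add_left, A1.del_smul_left, map_add]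

theorem om_gam_rel {C : Matrix S S ℝ} (hC : Cᵀ = -C) {ε ε' c : ℝ} {s t : S}
    (h : C s + ε • Pi.single s 1 = c • (C t + ε' • Pi.single t 1)) (F : Gr S) :
    om C (gam ε s F) = c * om C (gam ε' t F) := by
  rw [om_gam hC, om_gam hC, h, A1.del_smul_left, map_smul, smul_eq_mul]

section Mono

variable {E : Type} [Fintype E] [DecidableEq E]

/-- switching one bit -/
def tog (e : E) (n : E → Bool) : E → Bool := fun e' => xor (n e') (decide (e' = e))

/-- the product of the edge monomials -/
noncomputable def mono (a b : E → S) (n : E → Bool) : Ev S :=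
  ∏ e, if n e then pp (Pi.single (a e) 1) (Pi.single (b e) 1) else 1

/-- the ends of the edges are all different -/
structure Ends (a b : E → S) : Prop where
  ia : Function.Injective a
  ib : Function.Injective b
  ne : ∀ e e', a e ≠ b e'

variable {a b : E → S}

theorem prod_mem (s : Finset E) (n : E → Bool) {T : Set S}
    (h : ∀ e ∈ s, n e = true → a e ∈ T ∧ b e ∈ T) :
    Ev.val (∏ e ∈ s, if n e then pp (Pi.single (a e) 1) (Pi.single (b e) 1) else 1) ∈ loc T := by
  have : (∏ e ∈ s, if n e then pp (Pi.single (a e) 1) (Pi.single (b e) 1) else 1) ∈ evLoc T := by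
    refine Subalgebra.prod_mem _ fun e he => ?_
    split_ifs with hn
    · show Ev.val _ ∈ loc T
      rw [val_pp]
      exact (loc T).mul_mem (A1.gen_mem (h e he hn).1) (A1.gen_mem (h e he hn).2)
    · exact Subalgebra.one_mem _
  exact this

theorem del_mono (n : E → Bool) (g : S → ℝ) (h : ∀ e, n e = true → g (a e) = 0 ∧ g (b e) = 0) :
    del g (Ev.val (mono a b n)) = 0 :=
  A1.del_eq_zero (prod_mem (T := {s | g s = 0}) univ n fun e _ he => h e he) fun _ hs => hs

theorem mono_split (n : E → Bool) (e : E) : Ev.val (mono a b n) =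
    (if n e then gen (a e) * gen (b e) else 1) * Ev.val (∏ e' ∈ univ.erase e,
      if n e' then pp (Pi.single (a e') 1) (Pi.single (b e') 1) else 1) := by
  unfold mono
  rw [← Finset.mul_prod_erase univ _ (mem_univ e), map_mul]
  split_ifs
  · rw [val_pp]
    rfl
  · rw [map_one]

theorem gam_mono (h : Ends a b) {ε ε' : ℝ} (hε : ε * ε = 1) (hε' : ε' = -ε) (e : E)
    (n : E → Bool) :
    gam ε (a e) (gam ε' (b e) (Ev.val (mono a b n))) = Ev.val (mono a b (tog e n)) := by
  subst hε'
  have e1 : (∏ e' ∈ univ.erase e, if tog e n e' then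
      pp (Pi.single (a e') 1) (Pi.single (b e') 1) else 1) = ∏ e' ∈ univ.erase e,
      if n e' then pp (Pi.single (a e') 1) (Pi.single (b e') 1) else 1 :=
    Finset.prod_congr rfl fun e' he' => by simp [tog, ne_of_mem_erase he']
  rw [mono_split n e, mono_split (tog e n) e, e1]
  have hm := prod_mem (a := a) (b := b) (univ.erase e) n (T := {s | s ≠ a e ∧ s ≠ b e})
    fun e' he' _ => ⟨⟨h.ia.ne (ne_of_mem_erase he'), h.ne _ _⟩,
      ⟨(h.ne _ _).symm, h.ib.ne (ne_of_mem_erase he')⟩⟩
  generalize Ev.val (∏ e' ∈ univ.erase e,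
      if n e' then pp (Pi.single (a e') 1) (Pi.single (b e') 1) else 1) = X at hm
  have ha : del (Pi.single (a e) 1) X = 0 :=
    A1.del_eq_zero hm fun s hs => Pi.single_eq_of_ne hs.1 _
  have hb : del (Pi.single (b e) 1) X = 0 :=
    A1.del_eq_zero hm fun s hs => Pi.single_eq_of_ne hs.2 _
  have hab : (Pi.single (a e) 1 : S → ℝ) (b e) = 0 := Pi.single_eq_of_ne (h.ne _ _).symm _
  have hba : (Pi.single (b e) 1 : S → ℝ) (a e) = 0 := Pi.single_eq_of_ne (h.ne _ _) _
  have ht : tog e n e = !n e := by simp [tog]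
  rw [ht]
  cases n e
  · simp [gam, ha, hb, hab, A1.del_gen_mul, mul_assoc]
  · have e2 : gam (-ε) (b e) (gen (a e) * (gen (b e) * X)) = ε • (gen (a e) * X) := by
      unfold gam
      rw [gen_swap, gen_gen, A1.del_gen_mul, A1.del_gen_mul, hb, hba]
      simp
    simp only [if_true, Bool.not_true, mul_assoc, e2]
    simp [gam, gen_gen, A1.del_gen_mul, ha, smul_smul, hε]

end Mono

end Vale.Agent.P144Z.I1
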