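import Vale.Agent.P144Z.Ising
import Vale.Agent.P144Z.I1.Maj

/-!
# The Grassmann sign of a set of edges does not change when a spin is flipped
-/

namespace Vale.Agent.P144Z.I1

open Finset Matrix

set_option linter.unusedSectionVars false

/-- the generators of the torus without sources -/
abbrev SS (M : ℕ) : Type := (Tor M × Fin 4) ⊕ (Empty × Fin 2)

variable {M : ℕ} [NeZero M]

/-- the field at the start of an edge -/
def ea (e : Tor M × Fin 2) : SS M := Sum.inl (e.1, if e.2 = 0 then 0 else 1)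

/-- the field at the end of an edge -/
def eb (e : Tor M × Fin 2) : SS M := Sum.inl (e.1 + uv M e.2, if e.2 = 0 then 2 else 3)

/-- the ultralocal covariance -/
def G0 (M : ℕ) [NeZero M] : Matrix (SS M) (SS M) ℝ := fromBlocks (gM M) 0 0 0

theorem ends : Ends (ea (M := M)) eb where
  ia := by
    rintro ⟨x, i⟩ ⟨y, j⟩ h
    have h1 := Prod.ext_iff.1 (Sum.inl_injective h)
    have h2 : i = j := by
      have := h1.2
      fin_cases i <;> fin_cases j <;> simp_all
    exact Prod.ext h1.1 h2
  ib := by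
    rintro ⟨x, i⟩ ⟨y, j⟩ h
    have h1 := Prod.ext_iff.1 (Sum.inl_injective h)
    have h2 : i = j := by
      have := h1.2
      fin_cases i <;> fin_cases j <;> simp_all
    subst h2
    exact Prod.ext (add_right_cancel h1.1) rfl
  ne := by
    rintro ⟨x, i⟩ ⟨y, j⟩ h
    have h1 := (Prod.ext_iff.1 (Sum.inl_injective h)).2
    fin_cases i <;> fin_cases j <;> simp_all

theorem gA_eq : gA = ![![0, 1, -1, 1], ![-1, 0, 1, -1], ![1, -1, 0, 1], ![-1, 1, -1, 0]] := by
  funext a b
  fin_cases a <;> fin_cases b <;> simp [gA] <;> norm_num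

theorem gA_anti (a b : Fin 4) : gA b a = -gA a b := by
  fin_cases a <;> fin_cases b <;> simp [gA_eq]

theorem gM_anti : (gM M)ᵀ = -gM M := by
  ext s t
  show (if t.1 = s.1 then gA t.2 s.2 else 0) = -(if s.1 = t.1 then gA s.2 t.2 else 0)
  by_cases h : s.1 = t.1
  · rw [if_pos h, if_pos h.symm, gA_anti]
  · rw [if_neg h, if_neg (Ne.symm h), neg_zero]

theorem G0_anti : (G0 M)ᵀ = -G0 M := by
  unfold G0
  rw [fromBlocks_transpose, fromBlocks_neg, gM_anti]
  simp

theorem cw_eq (n : Tor M × Fin 2 → Bool) : cw n = om (G0 M) (Ev.val (mono ea eb n)) := by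
  have e : (∏ e : Tor M × Fin 2, if n e then (geo0 M).edge e.1 e.2 else 1) = mono ea eb n := by
    refine Finset.prod_congr rfl fun e _ => ?_
    split_ifs
    · exact one_smul ℝ _
    · rfl
  unfold cw
  rw [e]
  exact congrArg aug (val_evG (G0 M) (mono ea eb n))

/-- the field `a` at the point `x` -/
def fs (x : Tor M) (a : Fin 4) : SS M := Sum.inl (x, a)

theorem fs_ne {x y : Tor M} {a b : Fin 4} (h : a ≠ b) : fs x a ≠ fs y b :=
  fun e => h (Prod.ext_iff.1 (Sum.inl_injective e)).2

theorem row_eq (x : Tor M) (a : Fin 4) (ε : ℝ) (y : Tor M) (b : Fin 4) :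
    (G0 M (fs x a) + ε • Pi.single (fs x a) 1 : SS M → ℝ) (Sum.inl (y, b)) =
      if x = y then gA a b + (if a = b then ε else 0) else 0 := by
  show (if x = y then gA a b else 0) + ε * (Pi.single (fs x a) 1 : SS M → ℝ) (fs y b) = _
  by_cases h : x = y
  · subst h
    by_cases h' : a = b
    · subst h'
      simp
    · rw [Pi.single_eq_of_ne (fs_ne (Ne.symm h'))]
      simp [h']
  · have h' : fs y b ≠ fs x a := fun e => h (Prod.ext_iff.1 (Sum.inl_injective e)).1.symm
    rw [Pi.single_eq_of_ne h']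
    simp [h]

theorem rel (x : Tor M) {a a' : Fin 4} {ε ε' c : ℝ}
    (h : ∀ b, gA a b + (if a = b then ε else 0) = c * (gA a' b + if a' = b then ε' else 0))
    (F : Gr (SS M)) : om (G0 M) (gam ε (fs x a) F) = c * om (G0 M) (gam ε' (fs x a') F) := by
  refine om_gam_rel G0_anti (funext fun s => ?_) F
  rcases s with ⟨y, b⟩ | ⟨k, _⟩
  · rw [Pi.smul_apply, row_eq, row_eq, smul_eq_mul]
    by_cases hxy : x = y
    · rw [if_pos hxy, if_pos hxy, h]
    · rw [if_neg hxy, if_neg hxy, mul_zero]
  · exact k.elim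

theorem rel01 (x : Tor M) (F : Gr (SS M)) :
    om (G0 M) (gam (-1) (fs x 1) F) = -om (G0 M) (gam 1 (fs x 0) F) := by
  refine (rel x (c := -1) (fun b => ?_) F).trans (neg_one_mul _)
  fin_cases b <;> simp [gA_eq]

theorem rel12 (x : Tor M) (F : Gr (SS M)) :
    om (G0 M) (gam 1 (fs x 1) F) = -om (G0 M) (gam (-1) (fs x 2) F) := by
  refine (rel x (c := -1) (fun b => ?_) F).trans (neg_one_mul _)
  fin_cases b <;> simp [gA_eq]

theorem rel23 (x : Tor M) (F : Gr (SS M)) :
    om (G0 M) (gam 1 (fs x 2) F) = -om (G0 M) (gam (-1) (fs x 3) F) := by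
  refine (rel x (c := -1) (fun b => ?_) F).trans (neg_one_mul _)
  fin_cases b <;> simp [gA_eq]

theorem rel30 (x : Tor M) (F : Gr (SS M)) :
    om (G0 M) (gam 1 (fs x 3) F) = om (G0 M) (gam (-1) (fs x 0) F) := by
  refine (rel x (c := 1) (fun b => ?_) F).trans (one_mul _)
  fin_cases b <;> simp [gA_eq]

theorem tog0 (x : Tor M) {ε ε' : ℝ} (hε : ε * ε = 1) (hε' : ε' = -ε) (n : Tor M × Fin 2 → Bool) :
    Ev.val (mono ea eb (tog (x, 0) n)) =
      gam ε (fs x 0) (gam ε' (fs (x + uv M 0) 2) (Ev.val (mono ea eb n))) :=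
  (gam_mono ends hε hε' (x, 0) n).symm

theorem tog1 (x : Tor M) {ε ε' : ℝ} (hε : ε * ε = 1) (hε' : ε' = -ε) (n : Tor M × Fin 2 → Bool) :
    Ev.val (mono ea eb (tog (x, 1) n)) =
      gam ε (fs x 1) (gam ε' (fs (x + uv M 1) 3) (Ev.val (mono ea eb n))) :=
  (gam_mono ends hε hε' (x, 1) n).symm

/-- flipping the four edges of a face -/
theorem cw_face (u : Tor M) (n : Tor M × Fin 2 → Bool) :
    cw (tog (u, 1) (tog (u + uv M 1, 0) (tog (u + uv M 0, 1) (tog (u, 0) n)))) = cw n := by
  have e : u + uv M 0 + uv M 1 = u + uv M 1 + uv M 0 := add_right_comm _ _ _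
  have m1 : (-1 : ℝ) * -1 = 1 := by norm_num
  have z1 : (1 : ℝ) + -1 = 0 := add_neg_cancel 1
  rw [cw_eq, cw_eq, tog1 _ m1 (neg_neg 1).symm, tog0 _ m1 (neg_neg 1).symm,
    tog1 _ (one_mul 1) rfl, tog0 _ (one_mul 1) rfl, e]
  generalize Ev.val (mono ea eb n) = X
  generalize u + uv M 1 + uv M 0 = w
  generalize u + uv M 1 = z
  generalize u + uv M 0 = v
  rw [rel01, gam_anti (s := fs u 0) (t := fs z 3) (Or.inl (fs_ne (by decide))),
    gam_anti (s := fs u 0) (t := fs z 0) (Or.inr z1),
    gam_anti (s := fs u 0) (t := fs w 2) (Or.inl (fs_ne (by decide))),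
    gam_anti (s := fs u 0) (t := fs v 1) (Or.inl (fs_ne (by decide))),
    gam_anti (s := fs u 0) (t := fs w 3) (Or.inl (fs_ne (by decide))), gam_sq, one_smul]
  simp only [gam_neg, map_neg, neg_neg]
  rw [gam_anti (s := fs v 1) (t := fs w 3) (Or.inl (fs_ne (by decide)))]
  simp only [gam_neg, map_neg]
  rw [rel30, gam_sq, neg_smul, one_smul, map_neg, rel23, gam_sq, neg_smul, one_smul, map_neg,
    rel12, gam_sq, neg_smul, one_smul, map_neg]
  simp only [neg_neg]

theorem uv_ne : (0 : Fin 2) ≠ 1 := by decide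

theorem dom_tog (u : Tor M) (σ : Tor M → Bool) (n : Tor M × Fin 2 → Bool) :
    (fun e => xor (dom (tog u σ) e) (n e)) =
      tog (u, 1) (tog (u + uv M 1, 0) (tog (u + uv M 0, 1) (tog (u, 0)
        fun e => xor (dom σ e) (n e)))) := by
  funext ⟨x, i⟩
  fin_cases i
  · simp only [dom, tog, Fin.zero_eta, if_true, Prod.mk.injEq, and_true, sub_eq_iff_eq_add,
      uv_ne, and_false, decide_false, Bool.xor_false]
    generalize decide (x = u) = p
    generalize decide (x = u + uv M 1) = q
    cases σ x <;> cases σ (x - uv M 1) <;> cases n (x, 0) <;> cases p <;> cases q <;> rfl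
  · simp only [dom, tog, Fin.mk_one, uv_ne.symm, if_false, Prod.mk.injEq, and_true,
      sub_eq_iff_eq_add, and_false, decide_false, Bool.xor_false]
    generalize decide (x = u) = p
    generalize decide (x = u + uv M 0) = q
    cases σ x <;> cases σ (x - uv M 0) <;> cases n (x, 1) <;> cases p <;> cases q <;> rfl

theorem bool_ind {α : Type} [Fintype α] [DecidableEq α] {P : (α → Bool) → Prop}
    (h0 : P fun _ => false) (ht : ∀ u σ, P σ → P (tog u σ)) (σ : α → Bool) : P σ := by
  have key : ∀ s : Finset α, P fun x => decide (x ∈ s) := by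
    intro s
    induction s using Finset.induction_on with
    | empty => simpa using h0
    | insert u s hu ih =>
      have e : (fun x => decide (x ∈ insert u s)) = tog u fun x => decide (x ∈ s) := by
        funext x
        by_cases hx : x = u
        · subst hx
          simp [tog, hu]
        · simp [tog, hx]
      rw [e]
      exact ht u _ ih
  have e : σ = fun x => decide (x ∈ univ.filter fun y => σ y = true) := by
    funext x
    simp
  rw [e]
  exact key _

/-- adding domain walls does not change the sign -/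
theorem cw_xor_dom (σ : Tor M → Bool) (n : Tor M × Fin 2 → Bool) :
    cw (fun e => xor (dom σ e) (n e)) = cw n := by
  induction σ using bool_ind with
  | h0 => simp [dom]
  | ht u σ ih => rw [dom_tog, cw_face, ih]

theorem cw_empty : cw (M := M) (fun _ => false) = 1 := by
  rw [cw_eq]
  unfold mono
  simp [om_one]

theorem cw_dom (σ : Tor M → Bool) : cw (dom σ) = 1 := by
  have h := cw_xor_dom σ fun _ => false
  simp only [Bool.xor_false] at h
  exact h.trans cw_empty

end Vale.Agent.P144Z.I1
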