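import Vale.Agent.P144Z.I1.Even

/-!
# The sum over the four sectors is the sum over the spins
-/

namespace Vale.Agent.P144Z.I1

open Finset Matrix

set_option linter.unusedSectionVars false

variable {M : ℕ} [NeZero M]

theorem wt_mul (A B : Gauge M) (x : ℝ) (n : Tor M × Fin 2 → Bool) :
    wt (A * B) x n = wt A 1 n * wt B x n := by
  unfold wt
  rw [← Finset.prod_mul_distrib]
  refine Finset.prod_congr rfl fun e _ => ?_
  split_ifs
  · rw [Pi.mul_apply]
    ring
  · rw [one_mul]

theorem wt_sec (θ : Bool × Bool) (n : Tor M × Fin 2 → Bool) :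
    wt (sec M θ) 1 n = (if θ.1 then per0 n ((M / 2 : ℕ) : ZMod M) else 1) *
      if θ.2 then per1 n ((M / 2 : ℕ) : ZMod M) else 1 := by
  unfold wt
  rw [Fintype.prod_prod_type_right, Fin.prod_univ_two]
  refine congrArg₂ (· * ·) ?_ ?_
  · cases h : θ.1
    · simp [sec, h]
    · rw [if_pos rfl, Fintype.prod_prod_type, Finset.prod_eq_single ((M / 2 : ℕ) : ZMod M)]
      · refine Finset.prod_congr rfl fun j _ => ?_
        simp [sec, h, sgn]
      · intro i _ hi
        refine Finset.prod_eq_one fun j _ => ?_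
        simp [sec, hi]
      · intro hi
        exact absurd (mem_univ _) hi
  · cases h : θ.2
    · simp [sec, h]
    · rw [if_pos rfl, Fintype.prod_prod_type_right, Finset.prod_eq_single ((M / 2 : ℕ) : ZMod M)]
      · refine Finset.prod_congr rfl fun j _ => ?_
        simp [sec, h, sgn]
      · intro i _ hi
        refine Finset.prod_eq_one fun j _ => ?_
        simp [sec, hi]
      · intro hi
        exact absurd (mem_univ _) hi

theorem sum_wt_sec (n : Tor M × Fin 2 → Bool) :
    ∑ θ, wt (sec M θ) 1 n =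
      (1 + per0 n ((M / 2 : ℕ) : ZMod M)) * (1 + per1 n ((M / 2 : ℕ) : ZMod M)) := by
  simp only [wt_sec, Fintype.sum_prod_type, Fintype.sum_bool]
  simp
  ring

open Classical in
theorem cw_mul_sum (n : Tor M × Fin 2 → Bool) :
    cw n * ∑ θ, wt (sec M θ) 1 n = if ∃ σ, dom σ = n then 4 else 0 := by
  rw [sum_wt_sec]
  split_ifs with h
  · obtain ⟨σ, rfl⟩ := h
    rw [cw_dom, per0_dom, per1_dom]
    norm_num
  · by_cases hc : cw n = 0
    · rw [hc, zero_mul]
    have he := isEven_of_cw hc
    rw [he.per0_eq, he.per1_eq]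
    rcases prod_sgn_cases univ fun j => n ((0, j), 0) with h0 | h0
    · rcases prod_sgn_cases univ fun i => n ((i, 0), 1) with h1 | h1
      · exact absurd (he.exists_dom h0 h1) h
      · rw [show per1 n 0 = -1 from h1]
        ring
    · rw [show per0 n 0 = -1 from h0]
      ring

open Classical in
theorem card_fiber (n : Tor M × Fin 2 → Bool) :
    (univ.filter fun σ : Tor M → Bool => dom σ = n).card = if ∃ σ, dom σ = n then 2 else 0 := by
  split_ifs with h
  · obtain ⟨σ, rfl⟩ := h
    have e : (univ.filter fun τ : Tor M → Bool => dom τ = dom σ) = {σ, fun x => !σ x} := by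
      ext τ
      simp [dom_eq_iff]
    rw [e, Finset.card_pair]
    intro h
    have := congrFun h 0
    simp at this
  · rw [Finset.card_eq_zero, Finset.filter_eq_empty_iff]
    exact fun σ _ hσ => h ⟨σ, hσ⟩

/-- **The sum over the sectors.** -/
theorem sum_sec {V : Type} [AddCommGroup V] [Module ℝ V] (f : (Tor M × Fin 2 → Bool) → V) :
    ∑ θ, ∑ n, (cw n * wt (sec M θ) 1 n) • f n = (2 : ℝ) • ∑ σ : Tor M → Bool, f (dom σ) := by
  classical
  rw [Finset.sum_comm, ← Finset.sum_fiberwise univ dom fun σ => f (dom σ), Finset.smul_sum]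
  refine Finset.sum_congr rfl fun n _ => ?_
  rw [← Finset.sum_smul, ← Finset.mul_sum, cw_mul_sum,
    Finset.sum_congr rfl fun σ hσ => congrArg f (mem_filter.1 hσ).2, Finset.sum_const,
    card_fiber, ← Nat.cast_smul_eq_nsmul ℝ, smul_smul]
  split_ifs <;> norm_num

theorem sum_Zw (q : Par) (A : Gauge M) (Φ : (Tor M × Fin 2 → Bool) → ℝ) :
    ∑ θ, Zw q (sec M θ * A) Φ =
      2 * ∑ σ : Tor M → Bool, wt A q.x (dom σ) * Real.exp (uint q (dom σ)) * Φ (dom σ) := by
  refine Eq.trans ?_ (sum_sec fun n => wt A q.x n * Real.exp (uint q n) * Φ n)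
  refine Finset.sum_congr rfl fun θ _ => Finset.sum_congr rfl fun n _ => ?_
  rw [wt_mul, smul_eq_mul]
  ring

end Vale.Agent.P144Z.I1
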